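import Vale.Agent.P088.R2.H999.S4.PF

/-!
# P088, stage 4, row P3N
-/

open MeasureTheory Set Filter Topology
open scoped ContDiff Matrix

noncomputable section

namespace Vale.Agent.P088.S4.H999.P3

open Vale.Agent.P088.LR Vale.Agent.P088.LR.U Vale.Agent.P088.LR.H158 Vale.Agent.P088.PJ
open Vale.Agent.P088.HY.T3 (Eb e0 Ao Ac iv)
open Vale.Agent.P088.HY.T4 (gy gx Lvl cg)

variable {n N : ℕ}

theorem NrmN.mono {k l : ℕ} {ε δ : ℝ} {d : PD n N} {G : Set (V n)} (h : NrmN k ε d G)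
    (hl : l ≤ k) (hε : ε ≤ δ) : NrmN l δ d G :=
  ⟨h.oG, h.b1, ⟨H999.RL.mono h.rp.rl hl hε, H999.IG.mono h.rp.ig hl hε, h.rp.st, h.rp.it⟩, h.of⟩

/-- The lower bound at the selected point. -/
theorem wI_low {d : PD n N} {g ψ : V n → ℝ} {σ ν R L Gs δ Λ r : ℝ} {ps : V n}
    (hint : Integrable fun x => cT g ψ R L Gs x ^ 2 * Real.exp (2 * (ν * R) * g x) *
      U0 d.s₁ d.s₂ d.P₁ d.P₂ d.D x)
    (hr : 0 < r) (hδ : 0 < δ)
    (hball : ∀ x ∈ Metric.ball ps r, δ ^ 2 / 4 ≤ U0 d.s₁ d.s₂ d.P₁ d.P₂ d.D x ∧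
      |gx n σ x - Gs| ≤ Λ * r ∧ x ∈ Ac n (9 / 10) (12 / 10))
    (hrΛ : ν * R * (Λ * r) ≤ 1) (hν : 1 ≤ ν) (hR : 1 ≤ R) (hL : 4 ≤ L)
    (hψ : ∀ x ∈ Ac n (99 / 100) 11, ψ x = 1)
    (hz : ∀ x : V n, √(HY.sq x) < 1 → U0 d.s₁ d.s₂ d.P₁ d.P₂ d.D x = 0)
    (hge : ∀ x ∈ Ao n (3 / 4) 30, g x = gx n σ x) :
    Real.exp (2 * (ν * R) * Gs) * (δ ^ 2 / 36 * (2 * r) ^ n) ≤
      wI (cT g ψ R L Gs) g (ν * R) (U0 d.s₁ d.s₂ d.P₁ d.P₂ d.D) := by
  have hνR : 1 ≤ ν * R := by nlinarith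
  have hU : ∀ x, 0 ≤ U0 d.s₁ d.s₂ d.P₁ d.P₂ d.D x := fun x => by
    rw [U0_eq]; exact Finset.sum_nonneg fun _ _ => sq_nonneg _
  have hc : ∀ x ∈ Metric.ball ps r, Real.exp (2 * (ν * R) * Gs) * (δ ^ 2 / 36) ≤
      cT g ψ R L Gs x ^ 2 * Real.exp (2 * (ν * R) * g x) * U0 d.s₁ d.s₂ d.P₁ d.P₂ d.D x := by
    intro x hx
    obtain ⟨h1, h2, h3⟩ := hball x hx
    have hx1 : 1 ≤ √(HY.sq x) := by
      by_contra h
      rw [hz x (not_le.1 h)] at h1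
      have : 0 < δ ^ 2 / 4 := by positivity
      linarith
    have hg : g x = gx n σ x := hge x ⟨by linarith, by linarith [h3.2]⟩
    have h4 : |ν * R * (g x - Gs)| ≤ 1 := by
      rw [abs_mul, abs_of_nonneg (by linarith), hg]
      exact (mul_le_mul_of_nonneg_left h2 (by linarith)).trans hrΛ
    have h5 : -1 ≤ R * (g x - Gs) := by
      have h6 : |R * (g x - Gs)| ≤ 1 := by
        refine le_trans ?_ h4
        rw [abs_mul, abs_mul, abs_of_nonneg (by linarith : (0 : ℝ) ≤ ν * R),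
          abs_of_nonneg (by linarith : (0 : ℝ) ≤ R)]
        exact mul_le_mul_of_nonneg_right (le_mul_of_one_le_left (by linarith) hν) (abs_nonneg _)
      exact (abs_le.1 h6).1
    have h7 : cT g ψ R L Gs x = 1 :=
      cT_one (by linarith) (hψ x ⟨by linarith, by linarith [h3.2]⟩) (by linarith)
    have h8 : Real.exp (2 * (ν * R) * Gs) / 9 ≤ Real.exp (2 * (ν * R) * g x) := by
      have e1 : Real.exp (2 * (ν * R) * g x) =
          Real.exp (2 * (ν * R) * Gs) * Real.exp (2 * (ν * R * (g x - Gs))) := by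
        rw [← Real.exp_add]; congr 1; ring
      have e2 : (1 : ℝ) / 9 ≤ Real.exp (2 * (ν * R * (g x - Gs))) := by
        have e3 : Real.exp (-2) ≤ Real.exp (2 * (ν * R * (g x - Gs))) :=
          Real.exp_le_exp.2 (by linarith [(abs_le.1 h4).1])
        have e4 : (1 : ℝ) / 9 ≤ Real.exp (-2) := by
          rw [Real.exp_neg, one_div]
          refine inv_anti₀ (Real.exp_pos _) ?_
          have e5 : Real.exp 2 = Real.exp 1 ^ 2 := by rw [← Real.exp_nat_mul]; norm_num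
          rw [e5]
          have e6 : Real.exp 1 ≤ 3 := by linarith [Real.exp_one_lt_d9]
          nlinarith [Real.exp_pos 1]
        exact e4.trans e3
      rw [e1]
      have := mul_le_mul_of_nonneg_left e2 (Real.exp_pos (2 * (ν * R) * Gs)).le
      linarith
    rw [h7, one_pow, one_mul]
    calc Real.exp (2 * (ν * R) * Gs) * (δ ^ 2 / 36) =
          Real.exp (2 * (ν * R) * Gs) / 9 * (δ ^ 2 / 4) := by ring
      _ ≤ _ := mul_le_mul h8 h1 (by positivity) (Real.exp_pos _).le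
  have hmb : MeasurableSet (Metric.ball ps r) := Metric.isOpen_ball.measurableSet
  have hvol : volume (Metric.ball ps r) = ENNReal.ofReal ((2 * r) ^ n) := by
    rw [Real.volume_pi_ball _ hr, Fintype.card_fin]
  have hfin : volume (Metric.ball ps r) ≠ ⊤ := by rw [hvol]; exact ENNReal.ofReal_ne_top
  have h1 : ∫ x in Metric.ball ps r, Real.exp (2 * (ν * R) * Gs) * (δ ^ 2 / 36) =
      Real.exp (2 * (ν * R) * Gs) * (δ ^ 2 / 36 * (2 * r) ^ n) := by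
    rw [setIntegral_const, smul_eq_mul]
    unfold Measure.real
    rw [hvol, ENNReal.toReal_ofReal (by positivity)]
    ring
  rw [← h1]
  calc ∫ x in Metric.ball ps r, Real.exp (2 * (ν * R) * Gs) * (δ ^ 2 / 36) ≤
        ∫ x in Metric.ball ps r, cT g ψ R L Gs x ^ 2 * Real.exp (2 * (ν * R) * g x) *
          U0 d.s₁ d.s₂ d.P₁ d.P₂ d.D x := by
        refine setIntegral_mono_on ?_ hint.integrableOn hmb hc
        exact integrableOn_const hfin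
    _ ≤ _ := by
        unfold wI
        refine setIntegral_le_integral hint (Filter.Eventually.of_forall fun x => ?_)
        exact mul_nonneg (by positivity) (hU x)

/-- The radius of the ball. -/
theorem rad {A R C s kap δ ν Λ m r : ℝ} (hC : 0 ≤ C) (hR : 1 ≤ R) (hk1 : 1 ≤ kap) (hs : 0 < s)
    (hm0 : 0 ≤ m) (hν1 : 1 ≤ ν) (hΛ : 0 ≤ Λ)
    (hA : 10 * ((n : ℝ) + 1) + ν * Λ + 6 * C * (m + 1) ≤ A)
    (hr : r = 1 / (A * R ^ (C + 1) * kap ^ s)) :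
    0 < r ∧ (n + 1) * r ≤ 1 / 10 ∧ ν * R * (Λ * r) ≤ 1 ∧
      36 * m * (QQ C s R kap δ * r) ^ 2 ≤ δ ^ 2 := by
  have hn0 : (0 : ℝ) ≤ n := Nat.cast_nonneg n
  have hR0 : 0 < R := by linarith
  have hk0 : 0 < kap := by linarith
  have a1 : 0 ≤ 10 * ((n : ℝ) + 1) := by positivity
  have a2 : 0 ≤ ν * Λ := by positivity
  have a3 : 0 ≤ 6 * C * (m + 1) := by positivity
  have a4 : 10 * ((n : ℝ) + 1) ≤ A := by linarith
  have a5 : ν * Λ ≤ A := by linarith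
  have a6 : 6 * C * (m + 1) ≤ A := by linarith
  have hA0 : 0 < A := by linarith
  have hAR : A ≤ A * R := le_mul_of_one_le_right hA0.le hR
  have hRC : R ≤ R ^ (C + 1) := by
    nth_rewrite 1 [← Real.rpow_one R]
    exact Real.rpow_le_rpow_of_exponent_le hR (by linarith)
  have hks : 1 ≤ kap ^ s := Real.one_le_rpow hk1 hs.le
  have hP1 : 0 < R ^ (C + 1) := Real.rpow_pos_of_pos hR0 _
  have hP0 : 0 < R ^ C := Real.rpow_pos_of_pos hR0 _
  have hQ0 : 0 < kap ^ s := Real.rpow_pos_of_pos hk0 _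
  have hden : 0 < A * R ^ (C + 1) * kap ^ s := mul_pos (mul_pos hA0 hP1) hQ0
  have hden1 : A * R ≤ A * R ^ (C + 1) * kap ^ s := by
    calc A * R ≤ A * R ^ (C + 1) := mul_le_mul_of_nonneg_left hRC hA0.le
      _ ≤ _ := le_mul_of_one_le_right (mul_pos hA0 hP1).le hks
  refine ⟨by rw [hr]; exact div_pos one_pos hden, ?_, ?_, ?_⟩
  · rw [hr, mul_one_div, div_le_div_iff₀ hden (by norm_num)]
    linarith
  · rw [hr]
    have e1 : ν * R * (Λ * (1 / (A * R ^ (C + 1) * kap ^ s))) =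
        (ν * Λ * R) / (A * R ^ (C + 1) * kap ^ s) := by ring
    rw [e1, div_le_one hden]
    exact (mul_le_mul_of_nonneg_right a5 hR0.le).trans hden1
  · have e1 : QQ C s R kap δ * r = C / (A * R) * δ := by
      rw [hr]
      unfold QQ
      rw [Real.rpow_add hR0, Real.rpow_one]
      field_simp
    have e2 : 6 * C * (m + 1) ≤ A * R := a6.trans hAR
    have e4 : 36 * m * C ^ 2 ≤ (A * R) ^ 2 := by
      have e5 : (6 * C * (m + 1)) ^ 2 ≤ (A * R) ^ 2 := pow_le_pow_left₀ a3 e2 2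
      have e6 : 36 * m * C ^ 2 ≤ (6 * C * (m + 1)) ^ 2 := by
        have e7 : (6 * C * (m + 1)) ^ 2 = 36 * C ^ 2 * (m + 1) ^ 2 := by ring
        have e8 : m ≤ (m + 1) ^ 2 := by nlinarith
        rw [e7]
        have := mul_le_mul_of_nonneg_left e8 (by positivity : 0 ≤ 36 * C ^ 2)
        linarith
      exact e6.trans e5
    rw [e1]
    have e9 : 36 * m * (C / (A * R) * δ) ^ 2 = (36 * m * C ^ 2) / (A * R) ^ 2 * δ ^ 2 := by
      rw [mul_pow, div_pow]; ring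
    rw [e9]
    refine mul_le_of_le_one_left (sq_nonneg δ) ?_
    rw [div_le_one (by positivity)]
    exact e4

/-- **P3N.** The lower bound of the main term. -/
theorem rowP3N (hP : RowP2R) (hGE : RowXGE) : RowP3N := by
  intro n N hn hN σ hσ hσ1
  have hn1 : 1 ≤ n := by omega
  obtain ⟨g, M, c₀, hM, hc₀, hgs, hge, hWX⟩ := exG hn1 hσ hσ1
  obtain ⟨K₁, ε₁, C₁, ρ₁, hε₁, hC₁, H2⟩ := hP n N hn hN 4 σ (1 / 4) (by norm_num) hσ (by norm_num)
  obtain ⟨K₂, Cg, ε₂, ρ₂, hCg, hε₂, hρ₂, HG⟩ := hGE n N hn hN M c₀ C₁ hM hc₀ (by linarith)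
  obtain ⟨Cf, ε₃, hCf, hε₃, hε₃1, HF⟩ := H972.facts n N
  obtain ⟨T, hT, hT1, hT2⟩ := exists_bd
  obtain ⟨A₀, ψ, χ₁, χ₂, hCu⟩ := exCu n
  obtain ⟨Λ, hΛ1, hΛ⟩ := HY.T4.gx_lip (n := n) σ
  obtain ⟨ν₀, hν₀⟩ : ∃ ν₀, ν₀ = A₀ + 2 * A₀ * T * M + T * M ^ 2 + T * M + 1 := ⟨_, rfl⟩
  have hA₀ := hCu.a0
  have hm0 := mm_nn n N
  have hn0 : (0 : ℝ) ≤ n := Nat.cast_nonneg n
  have hν₀1 : 1 ≤ ν₀ := by
    have : 0 ≤ A₀ + 2 * A₀ * T * M + T * M ^ 2 + T * M := by positivity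
    linarith
  refine ⟨2 * ((n : ℝ) + 3), fun q hq => ⟨ν₀, fun ν hν => ⟨max K₁ (max K₂ 2),
    min ε₁ (min ε₂ (min ε₃ (1 / 2))), by positivity, fun s hs hs1 C hC => ?_⟩⟩⟩
  have hν1 : 1 ≤ ν := hν₀1.trans hν
  have hq0 : 0 ≤ q := by linarith
  obtain ⟨A, hA⟩ : ∃ A, A = 10 * ((n : ℝ) + 1) + ν * Λ + 6 * C * (mm n N + 1) + 1 := ⟨_, rfl⟩
  have hA1 : 1 ≤ A := by
    have : 0 ≤ 10 * ((n : ℝ) + 1) + ν * Λ + 6 * C * (mm n N + 1) := by positivity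
    linarith
  obtain ⟨C', hC'⟩ : ∃ C', C' = 72 * A ^ n * Cg * ν + ((C + 1) * n + 1) := ⟨_, rfl⟩
  have hC'0 : 0 ≤ C' := by rw [hC']; positivity
  refine ⟨C', (C + 1) * n + 2 * C + 7,
    2 * (36 * A ^ n * Cg * ν ^ 6 * 24 ^ n * mm n N * C ^ 2) + |ρ₁| + |ρ₂| + A₀ + Real.exp 4, 1 / 10,
    hC'0, by norm_num, ?_⟩
  intro d G hNr R kap Gs δ ps hR₀ hR hRk hke hGs S
  -- sizes
  have hR0 : 0 < R := by linarith
  have hk1 : 1 ≤ kap := S.k1
  have hk0 : 0 < kap := by linarith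
  have hK2 : 0 ≤ 2 * (36 * A ^ n * Cg * ν ^ 6 * 24 ^ n * mm n N * C ^ 2) := by positivity
  have ha1 := abs_nonneg ρ₁
  have ha2 := abs_nonneg ρ₂
  have he4 := Real.exp_pos 4
  have hR1 : 2 * (36 * A ^ n * Cg * ν ^ 6 * 24 ^ n * mm n N * C ^ 2) ≤ R := by linarith
  have hRρ1 : ρ₁ ≤ R := by linarith [le_abs_self ρ₁]
  have hRρ2 : ρ₂ ≤ R := by linarith [le_abs_self ρ₂]
  have hRA : A₀ ≤ R := by linarith
  have hRe : Real.exp 4 ≤ R := by linarith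
  have hRν : R ≤ ν * R := le_mul_of_one_le_left hR0.le hν1
  have hρ1 : 1 ≤ ν * R := hR.trans hRν
  have hL4 : 4 ≤ Real.log kap := by
    rw [Real.le_log_iff_exp_le hk0]
    refine (hRe.trans ?_).trans hRk
    have : R = R ^ (1 : ℝ) := (Real.rpow_one R).symm
    nth_rewrite 1 [this]
    refine Real.rpow_le_rpow_of_exponent_le hR ?_
    nlinarith
  have hLR : Real.log kap ≤ R / 10 := by
    rw [Real.log_le_iff_le_exp hk0]
    refine hke.trans (le_of_eq ?_)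
    congr 1; ring
  -- the data
  have hN1 := NrmN.mono hNr (l := K₁) (δ := ε₁) (le_max_left _ _) (min_le_left _ _)
  have hN2 := NrmN.mono hNr (l := K₂) (δ := ε₂) ((le_max_left _ _).trans (le_max_right _ _))
    ((min_le_right _ _).trans (min_le_left _ _))
  have hN3 := NrmN.mono hNr (l := 2) (δ := min ε₃ (1 / 2)) ((le_max_right _ _).trans
    (le_max_right _ _)) ((min_le_right _ _).trans (min_le_right _ _))
  have rl := hN3.rp.rl
  have hε3' : 0 ≤ min ε₃ (1 / 2) := by positivity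
  obtain ⟨-, hI2, -⟩ := HF (min ε₃ (1 / 2)) hε3' (min_le_left _ _) 2 le_rfl _ _ _ _ rl.d₂
  have h1 := rl.d₁.ss
  have h2 := rl.d₂.ss
  have p1 := rl.d₁.sP
  have p2 := rl.d₂.sP
  have hD := rl.sD
  have hV : ∀ i j, SmC (VD d i j) := fun i j =>
    smC_VS h1 h2 hN3.rp.st p1 p2 hI2 rl.d₂.sG rl.sβ hN3.rp.ig.sm hD i j
  have hip : ∀ x, 0 < HY.ipm d.s₁ d.s₁ x := by
    intro x
    refine ipm_pos hn1 fun i j => ?_
    have := PJ.H960.cl_norm (rl.d₁.cs i j) x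
    rw [Real.norm_eq_abs] at this
    exact this.trans (min_le_right _ _)
  have htc : Continuous (tn (tfC d.s₁ (VD d))) := cont_tn h1 hip hV
  -- the differences vanish in the unit ball
  have hUo : IsOpen (Eb (0 : V n) 1) := HY.T3.isOpen_Eb _ _
  have hin : ∀ x ∈ Eb (0 : V n) 1, x ∈ Eb (0 : V n) 24 ∧ x ∉ Gᶜ := by
    intro x hx
    refine ⟨?_, fun h => h (hNr.b1 hx)⟩
    rw [HY.T3.mem_Eb0 (by norm_num)] at hx ⊢
    linarith
  have ds : ∀ x ∈ Eb (0 : V n) 1, d.s₂ x = d.s₁ x := fun x hx =>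
    rl.os x (hin x hx).1 (hin x hx).2
  have dP : ∀ x ∈ Eb (0 : V n) 1, d.P₂ x = d.P₁ x := fun x hx =>
    rl.oP x (hin x hx).1 (hin x hx).2
  have dD : ∀ a, ∀ x ∈ Eb (0 : V n) 1, d.D a x = 0 := fun a x hx =>
    rl.oD a x (hin x hx).1 (hin x hx).2
  have hz : ∀ x : V n, √(HY.sq x) < 1 → U0 d.s₁ d.s₂ d.P₁ d.P₂ d.D x = 0 := fun x hx =>
    U0_zero hUo ds dP dD ((HY.T3.mem_Eb0 one_pos).2 hx)
  have hzt : ∀ x : V n, √(HY.sq x) < 1 → tn (tfC d.s₁ (VD d)) x = 0 := fun x hx =>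
    tn_zero fun i j => VS_zero hUo ds dP dD ((HY.T3.mem_Eb0 one_pos).2 hx) i j
  -- the cut-off
  have hfar : ∀ x : V n, 11 ≤ √(HY.sq x) → √(HY.sq x) ≤ 12 →
      R * (g x - Gs) ≤ -(Real.log kap / 4) := by
    intro x hx hx'
    have e1 : g x = gx n σ x := hge x ⟨by linarith, by linarith⟩
    have e2 := HY.T4.gx_le hn1 (σ := σ) (by linarith) (x := x) ⟨by linarith, by linarith⟩
    have e3 : g x - Gs ≤ -(1 / 10) := by
      rw [e1]; linarith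
    have e4 := mul_le_mul_of_nonneg_left e3 hR0.le
    linarith
  have hcc := ccT (Gs := Gs) hCu hgs hWX hM.le hT hT1 hT2 hL4 hR (by linarith : A₀ + 2 * A₀ * T * M
    + T * M ^ 2 + T * M ≤ ν) hν1 hRA hfar
  -- the gauge estimate
  have hO : IsOpen (Ao n (4 / 5) 24) := HY.T3.isOpen_Ao _ _
  have hOE : Ao n (4 / 5) 24 ⊆ Eb (0 : V n) 24 := fun x hx =>
    (HY.T3.mem_Eb0 (by norm_num)).2 hx.2
  obtain ⟨-, hS1, hS2⟩ := H2 d G hN1 (gy n σ) (lvl_gy hn1 hσ hσ1) (Ao n (4 / 5) 24) hO subset_rfl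
    (ν * R) (hRρ1.trans hRν) hρ1
  have hgO : ∀ x ∈ Ao n (4 / 5) 24, g x = gy n σ (iv x) := fun x hx =>
    hge x ⟨by linarith [hx.1], by linarith [hx.2]⟩
  have hgeo := HG (Ao n (4 / 5) 24) Gᶜ d.j₀ d.s₁ d.s₂ d.P₁ d.P₂ d.G₁ d.G₂ d.β d.Y d.D
    (RL.sub hN2.rp.rl hOE hO) d.Γ hN2.rp.ig d.τ hN2.rp.st hN2.rp.it g hWX (ν * R)
    (hRρ2.trans hRν) (slD_of hO hgs.continuous hgO hS1) (slD_of hO hgs.continuous hgO hS2)
    (BT g ψ R (Real.log kap) Gs) (cT g ψ R (Real.log kap) Gs) χ₁ χ₂ hcc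
  -- continuity
  have c1 : Continuous (hh d.s₁ d.s₂) := H972.cont_hh h1 h2
  have c2 : Continuous fun x => nq (d.P₂ x - d.P₁ x) := nq_s (smC_sub p2 p1)
  have c3 : Continuous (d0 d.D) := H972.cont_d0 hD
  have c4 : Continuous (d1 d.D) := H972.cont_d1 hD
  have cU : Continuous (U0 d.s₁ d.s₂ d.P₁ d.P₂ d.D) := ((c1.add c2).add c3).add c4
  have cV : Continuous fun x => hh d.s₁ d.s₂ x + nq (d.P₂ x - d.P₁ x) + d1 d.D x +
      (ν * R) ^ 2 * d0 d.D x := ((c1.add c2).add c4).add (continuous_const.mul c3)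
  have hUV : wI (cT g ψ R (Real.log kap) Gs) g (ν * R) (U0 d.s₁ d.s₂ d.P₁ d.P₂ d.D) ≤
      wI (cT g ψ R (Real.log kap) Gs) g (ν * R) (fun x => hh d.s₁ d.s₂ x +
        nq (d.P₂ x - d.P₁ x) + d1 d.D x + (ν * R) ^ 2 * d0 d.D x) := by
    refine H972.wI_mono hcc hgs.continuous cU cV fun x => ?_
    have e1 : 0 ≤ d0 d.D x := Finset.sum_nonneg fun _ _ => Finset.sum_nonneg fun _ _ =>
      Finset.sum_nonneg fun _ _ => sq_nonneg _
    have e2 : 1 ≤ (ν * R) ^ 2 := one_le_pow₀ hρ1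
    have e3 : d0 d.D x ≤ (ν * R) ^ 2 * d0 d.D x := le_mul_of_one_le_left e1 e2
    unfold U0
    linarith
  -- the ball at the selected point
  obtain ⟨r, hr⟩ : ∃ r, r = 1 / (A * R ^ (C + 1) * kap ^ s) := ⟨_, rfl⟩
  obtain ⟨hr0, hrn, hrΛ, hr2⟩ := rad (δ := δ) hC hR hk1 hs hm0 hν1 (by linarith : (0 : ℝ) ≤ Λ)
    (by linarith : 10 * ((n : ℝ) + 1) + ν * Λ + 6 * C * (mm n N + 1) ≤ A) hr
  have hball := fun x (hx : x ∈ Metric.ball ps r) => U0_low h1 h2 p1 p2 hD hC hR0 (by linarith) hq0 S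
    hr0 hrn hΛ (by linarith) hrΛ hr2 hx
  have hlow := wI_low (L := Real.log kap) (ψ := ψ) (H972.wI_int hcc hgs.continuous cU) hr0 S.δ0
    hball hrΛ hν1 hR hL4 hCu.i0 hz hge
  have hB := wB_le (g := g) (ψ := ψ) h1 h2 p1 p2 hD hC hR0.le hq0 S hge hCu.t0 hz
  have hmain := wI_tn (d := d) (σ := σ) (ν := ν) (R := R) (Gs := Gs) (ψ := ψ) hgs.continuous hge
    (by linarith : 0 < Real.log kap) rfl hCu.s0.continuous hCu.t0 hCu.b0 htc hzt
  have hX : 0 ≤ ItN d σ ν R kap Gs := by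
    unfold ItN
    refine integral_nonneg fun x => ?_
    exact mul_nonneg (mul_nonneg (sq_nonneg _) (tn_nn _ _)) (Real.exp_pos _).le
  rw [hC']
  refine fin_ar hC hR hk1 S.δ0 hs hs1 hq hν1 hCg hA1 hm0 hX hr hRk hR1 ?_
  have he : 0 < Real.exp (2 * (ν * R) * Gs) := Real.exp_pos _
  refine le_of_mul_le_mul_left ?_ he
  refine (hlow.trans (hUV.trans hgeo)).trans ?_
  have q1 : Cg * (ν * R) * wI (cT g ψ R (Real.log kap) Gs) g (ν * R) (tn (tfC d.s₁ (VD d))) ≤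
      Cg * (ν * R) * (Real.exp (2 * (ν * R) * Gs) * ItN d σ ν R kap Gs) :=
    mul_le_mul_of_nonneg_left hmain (by positivity)
  have q2 : Cg * (ν * R) ^ 6 * wB (BT g ψ R (Real.log kap) Gs) g (ν * R)
      (U0 d.s₁ d.s₂ d.P₁ d.P₂ d.D) ≤ Cg * (ν * R) ^ 6 * (Real.exp (2 * (ν * R) * Gs) *
        (mm n N * (QQ C s R kap δ) ^ 2 * kap ^ (-(q / 2)) * 24 ^ n)) :=
    mul_le_mul_of_nonneg_left hB (by positivity)
  refine (add_le_add q1 q2).trans (le_of_eq ?_)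
  ring

end Vale.Agent.P088.S4.H999.P3
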