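import Vale.Agent.P088.R2.H455.S4.SpecB
import Vale.Agent.P088.R2.H404.P1a
import Vale.Agent.P088.R2.H437.KEL
import Vale.Agent.P088.R2.H238.S3.Tfrw

/-!
# P088, stage 4, row P3N: the level function as a global weight
-/

open MeasureTheory Set Filter Topology
open scoped ContDiff Matrix

noncomputable section

namespace Vale.Agent.P088.S4.H999.P3

open Vale.Agent.P088.LR Vale.Agent.P088.HY
open Vale.Agent.P088.HY.T3 (Eb e0 Ao Ac iv)
open Vale.Agent.P088.HY.T4 (gy gx Lvl)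
open Vale.Agent.P088.HY.H437.Kel (pd_comp_iv rf_rf)

variable {n : ℕ}

theorem gy_cd (σ : ℝ) : ContDiff ℝ ∞ (gy n σ) := by
  unfold gy HY.sq
  simp only [Pi.sub_apply]
  fun_prop

theorem pd_gy (σ : ℝ) (i : Fin n) (y : V n) :
    LR.pd i (gy n σ) y = e0 n i + σ * (y i - e0 n i) := by
  have h1 : ∀ j : Fin n, HasFDerivAt (fun z : V n => z j)
      (ContinuousLinearMap.proj (R := ℝ) j : V n →L[ℝ] ℝ) y := fun j =>
    (ContinuousLinearMap.proj (R := ℝ) j : V n →L[ℝ] ℝ).hasFDerivAt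
  have h2 : HasFDerivAt (fun z : V n => (∑ j, z j * e0 n j) - 1 + σ / 2 * ∑ j, (z j - e0 n j) ^ 2)
      ((∑ j, e0 n j • (ContinuousLinearMap.proj (R := ℝ) j : V n →L[ℝ] ℝ)) +
        (σ / 2) • ∑ j, (2 * (y j - e0 n j)) • (ContinuousLinearMap.proj (R := ℝ) j : V n →L[ℝ] ℝ))
      y := by
    refine HasFDerivAt.add ?_ ?_
    · refine HasFDerivAt.sub_const _ ?_
      exact HasFDerivAt.fun_sum fun j _ => (h1 j).mul_const _
    · refine HasFDerivAt.const_mul ?_ _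
      refine HasFDerivAt.fun_sum fun j _ => ?_
      have h3 := ((h1 j).sub_const (e0 n j)).pow 2
      refine h3.congr_fderiv ?_
      ext v
      simp
  have h4 : (gy n σ) = fun z : V n => (∑ j, z j * e0 n j) - 1 + σ / 2 * ∑ j, (z j - e0 n j) ^ 2 := by
    funext z
    unfold gy HY.sq
    simp only [Pi.sub_apply]
  unfold LR.pd
  rw [h4, h2.fderiv]
  simp only [_root_.add_apply, _root_.smul_apply,
    _root_.sum_apply, ContinuousLinearMap.proj_apply, Pi.single_apply, smul_eq_mul,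
    mul_ite, mul_one, mul_zero, Finset.sum_ite_eq', Finset.mem_univ, if_true]
  ring

theorem pd2_gy (σ : ℝ) (i j : Fin n) (y : V n) :
    LR.pd i (LR.pd j (gy n σ)) y = if i = j then σ else 0 := by
  have h1 : LR.pd j (gy n σ) = fun y => e0 n j + σ * (y j - e0 n j) := funext (pd_gy σ j)
  rw [h1]
  have h2 : HasFDerivAt (fun z : V n => e0 n j + σ * (z j - e0 n j))
      (σ • (ContinuousLinearMap.proj (R := ℝ) j : V n →L[ℝ] ℝ)) y := by
    refine HasFDerivAt.const_add _ ?_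
    refine HasFDerivAt.const_mul ?_ _
    exact HasFDerivAt.sub_const _ (ContinuousLinearMap.proj (R := ℝ) j : V n →L[ℝ] ℝ).hasFDerivAt
  unfold LR.pd
  rw [h2.fderiv]
  simp only [_root_.smul_apply, ContinuousLinearMap.proj_apply, Pi.single_apply,
    smul_eq_mul, mul_ite, mul_one, mul_zero, eq_comm]

theorem e0_abs (i : Fin n) : |e0 n i| ≤ 1 := by
  unfold e0
  split_ifs <;> simp

theorem abs_le_rt (x : V n) (i : Fin n) : |x i| ≤ √(HY.sq x) := by
  refine Real.abs_le_sqrt ?_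
  exact Finset.single_le_sum (f := fun j => x j ^ 2) (fun j _ => sq_nonneg _) (Finset.mem_univ i)

theorem pd_gy_low (hn : 1 ≤ n) {σ : ℝ} (h0 : 0 < σ) (h1 : σ ≤ 1 / 10) {y : V n}
    (hy : √(HY.sq y) ≤ 5 / 4) : 1 / 4 ≤ ∑ i, LR.pd i (gy n σ) y ^ 2 := by
  obtain ⟨o, ho⟩ : ∃ o : Fin n, o = ⟨0, by omega⟩ := ⟨_, rfl⟩
  have h2 : e0 n o = 1 := by rw [ho]; simp [e0]
  have h3 : 1 / 2 ≤ LR.pd o (gy n σ) y := by
    rw [pd_gy, h2]
    have h4 := abs_le.1 ((abs_le_rt y o).trans hy)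
    nlinarith [h4.1]
  calc (1 / 4 : ℝ) ≤ LR.pd o (gy n σ) y ^ 2 := by nlinarith
    _ ≤ _ := Finset.single_le_sum (f := fun i => LR.pd i (gy n σ) y ^ 2)
        (fun _ _ => sq_nonneg _) (Finset.mem_univ o)

theorem lvl_gy (hn : 1 ≤ n) {σ : ℝ} (h0 : 0 < σ) (h1 : σ ≤ 1 / 10) :
    Lvl n 4 σ (1 / 4) (gy n σ) := by
  have hr : ∀ {y : V n}, y ∈ Eb (0 : V n) (5 / 4) → √(HY.sq y) ≤ 5 / 4 := fun hy =>
    ((T3.mem_Eb0 (by norm_num)).1 hy).le
  refine ⟨gy_cd σ, fun y hy i => ?_, fun y hy i j => ?_, fun y hy i j k => ?_, fun y hy => ?_,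
    fun y hy ξ => ?_⟩
  · rw [pd_gy]
    have h2 := abs_le.1 (e0_abs (n := n) i)
    have h3 := abs_le.1 ((abs_le_rt y i).trans (hr hy))
    rw [abs_le]
    constructor <;> nlinarith [h2.1, h2.2, h3.1, h3.2]
  · rw [pd2_gy]
    split_ifs
    · rw [abs_of_pos h0]; linarith
    · simp
  · have h2 : LR.pd j (LR.pd k (gy n σ)) = fun _ => if j = k then σ else 0 :=
      funext (pd2_gy σ j k)
    rw [h2]
    unfold LR.pd
    simp
  · exact pd_gy_low hn h0 h1 (hr hy)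
  · have h2 : ∀ i j, ξ i * ξ j * LR.pd i (LR.pd j (gy n σ)) y = if i = j then σ * ξ i ^ 2 else 0 := by
      intro i j
      rw [pd2_gy]
      split_ifs with h
      · rw [h]; ring
      · ring
    simp only [h2, Finset.sum_ite_eq, Finset.mem_univ, if_true]
    rw [Finset.mul_sum]

/-- The gradient of the level function does not vanish. -/
theorem gx_low (hn : 1 ≤ n) {σ : ℝ} (h0 : 0 < σ) (h1 : σ ≤ 1 / 10) {x : V n}
    (hx : 4 / 5 ≤ √(HY.sq x)) (hx' : √(HY.sq x) ≤ 24) :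
    (1 / 24) ^ 4 / 4 ≤ ∑ i, LR.pd i (gx n σ) x ^ 2 := by
  have hx0 : x ≠ 0 := by
    rintro rfl
    have : HY.sq (0 : V n) = 0 := by unfold HY.sq; simp
    rw [this, Real.sqrt_zero] at hx
    linarith
  have hs : 0 < HY.sq x := H437.Kel.sq_pos hx0
  obtain ⟨a, ha⟩ : ∃ a : Fin n → ℝ, a = fun m => LR.pd m (gy n σ) (iv x) := ⟨_, rfl⟩
  have h2 : ∀ i, LR.pd i (gx n σ) x = (HY.sq x)⁻¹ * ∑ m, T3.rf x m i * a m := by
    intro i
    have h3 : gx n σ = fun y => gy n σ (iv y) := rfl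
    rw [h3, pd_comp_iv hx0 ((gy_cd σ).differentiable (by simp) _), Finset.mul_sum, ha]
    refine Finset.sum_congr rfl fun m _ => by ring
  have h4 : ∑ i, (∑ m, T3.rf x m i * a m) ^ 2 = ∑ m, a m ^ 2 := by
    have h5 : ∀ i, (∑ m, T3.rf x m i * a m) ^ 2 =
        ∑ m, ∑ l, a m * a l * (T3.rf x m i * T3.rf x i l) := by
      intro i
      rw [pow_two, Finset.sum_mul_sum]
      refine Finset.sum_congr rfl fun m _ => Finset.sum_congr rfl fun l _ => ?_
      rw [H437.Kel.rf_symm x l i]; ring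
    simp only [h5]
    rw [Finset.sum_comm]
    refine Finset.sum_congr rfl fun m _ => ?_
    rw [Finset.sum_comm]
    have h6 : ∀ l, ∑ i, a m * a l * (T3.rf x m i * T3.rf x i l) =
        a m * a l * (1 : Matrix (Fin n) (Fin n) ℝ) m l := by
      intro l
      rw [← Finset.mul_sum, rf_rf hx0]
    simp only [h6, Matrix.one_apply, mul_ite, mul_one, mul_zero, Finset.sum_ite_eq, Finset.mem_univ,
      if_true]
    ring
  have h7 : ∑ i, LR.pd i (gx n σ) x ^ 2 = ((HY.sq x)⁻¹) ^ 2 * ∑ m, a m ^ 2 := by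
    rw [← h4, Finset.mul_sum]
    refine Finset.sum_congr rfl fun i _ => ?_
    rw [h2 i]; ring
  have h8 : √(HY.sq (iv x)) ≤ 5 / 4 := by
    rw [H437.Kel.sq_iv hx0, Real.sqrt_inv]
    rw [inv_le_comm₀ (by positivity) (by norm_num)]
    linarith
  have h9 : 1 / 4 ≤ ∑ m, a m ^ 2 := by
    rw [ha]; exact pd_gy_low hn h0 h1 h8
  have h10 : HY.sq x ≤ 24 ^ 2 := by
    have := Real.sqrt_le_left (x := HY.sq x) (y := 24) (by norm_num)
    exact this.1 hx'
  have h11 : (1 / 24 : ℝ) ^ 2 ≤ (HY.sq x)⁻¹ := by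
    rw [div_pow, one_pow, one_div]
    exact inv_anti₀ hs h10
  rw [h7]
  calc ((1 : ℝ) / 24) ^ 4 / 4 = ((1 / 24) ^ 2) ^ 2 * (1 / 4) := by ring
    _ ≤ ((HY.sq x)⁻¹) ^ 2 * ∑ m, a m ^ 2 := by
        refine mul_le_mul ?_ h9 (by norm_num) (by positivity)
        exact pow_le_pow_left₀ (by positivity) h11 2

/-- The level function, extended to a global weight. -/
theorem exG (hn : 1 ≤ n) {σ : ℝ} (h0 : 0 < σ) (h1 : σ ≤ 1 / 10) :
    ∃ (g : V n → ℝ) (M c₀ : ℝ), 0 < M ∧ 0 < c₀ ∧ ContDiff ℝ ∞ g ∧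
      (∀ x ∈ Ao n (3 / 4) 30, g x = gx n σ x) ∧ WX (Ao n (4 / 5) 24) M c₀ g := by
  have hne : ∀ {x : V n}, 0 < √(HY.sq x) → HY.sq x ≠ 0 := fun h h' => by
    rw [h', Real.sqrt_zero] at h; exact lt_irrefl _ h
  obtain ⟨ψ, O, hψ, hψs, hO, hKO, hψ1, -⟩ := R2.H238.S3.ex_cut (T3.isClosed_Ac (n := n) (3 / 4) 30)
    (T3.isOpen_Ao (n := n) (1 / 2) 31) fun x hx => ⟨by linarith [hx.1], by linarith [hx.2]⟩
  have hsub : tsupport ψ ⊆ {x : V n | HY.sq x ≠ 0} := fun x hx => hne (by linarith [(hψs hx).1])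
  obtain ⟨g, hg⟩ : ∃ g : V n → ℝ, g = fun x => ψ x * gx n σ x := ⟨_, rfl⟩
  have hgs : ContDiff ℝ ∞ g := by
    rw [hg]
    exact R2.H238.S3.smx T4.isOpen_ne hψ hsub (T4.gx_cd σ)
  have hge : ∀ x ∈ Ao n (3 / 4) 30, g x = gx n σ x := by
    intro x hx
    rw [hg]
    show ψ x * gx n σ x = gx n σ x
    rw [hψ1 x (hKO ⟨hx.1.le, hx.2.le⟩), one_mul]
  have hK := T3.isCompact_Ac (n := n) (4 / 5) 24
  have hb1 : ∀ i : Fin n, ∃ A : ℝ, ∀ x ∈ Ac n (4 / 5) 24, |LR.pd i g x| ≤ A := by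
    intro i
    have hc : ContDiff ℝ ∞ (LR.pd i g) :=
      (hgs.fderiv_right (m := ∞) le_rfl).clm_apply contDiff_const
    exact hK.exists_bound_of_continuousOn hc.continuous.continuousOn
  have hb2 : ∀ i j : Fin n, ∃ A : ℝ, ∀ x ∈ Ac n (4 / 5) 24, |LR.pd i (LR.pd j g) x| ≤ A := by
    intro i j
    have hc : ContDiff ℝ ∞ (LR.pd j g) :=
      (hgs.fderiv_right (m := ∞) le_rfl).clm_apply contDiff_const
    have hc' : ContDiff ℝ ∞ (LR.pd i (LR.pd j g)) :=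
      (hc.fderiv_right (m := ∞) le_rfl).clm_apply contDiff_const
    exact hK.exists_bound_of_continuousOn hc'.continuous.continuousOn
  choose A hA using hb1
  choose B hB using hb2
  have hAs : ∀ i, |A i| ≤ ∑ i, |A i| := fun i =>
    Finset.single_le_sum (f := fun i => |A i|) (fun _ _ => abs_nonneg _) (Finset.mem_univ i)
  have hBs : ∀ i j, |B i j| ≤ ∑ i, ∑ j, |B i j| := fun i j =>
    (Finset.single_le_sum (f := fun j => |B i j|) (fun _ _ => abs_nonneg _)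
      (Finset.mem_univ j)).trans (Finset.single_le_sum (f := fun i => ∑ j, |B i j|)
        (fun _ _ => Finset.sum_nonneg fun _ _ => abs_nonneg _) (Finset.mem_univ i))
  have hA0 : 0 ≤ ∑ i, |A i| := Finset.sum_nonneg fun _ _ => abs_nonneg _
  have hB0 : 0 ≤ ∑ i, ∑ j, |B i j| :=
    Finset.sum_nonneg fun _ _ => Finset.sum_nonneg fun _ _ => abs_nonneg _
  refine ⟨g, (∑ i, |A i|) + (∑ i, ∑ j, |B i j|) + 1, (1 / 24) ^ 4 / 4, by linarith, by norm_num,
    hgs, hge, hgs, fun x hx i => ?_, fun x hx i j => ?_, fun x hx => ?_⟩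
  · refine (hA i x ⟨hx.1.le, hx.2.le⟩).trans ((le_abs_self _).trans ?_)
    linarith [hAs i]
  · refine (hB i j x ⟨hx.1.le, hx.2.le⟩).trans ((le_abs_self _).trans ?_)
    linarith [hBs i j]
  · have h2 : g =ᶠ[𝓝 x] gx n σ := by
      filter_upwards [(T3.isOpen_Ao (n := n) (3 / 4) 30).mem_nhds
        ⟨by linarith [hx.1], by linarith [hx.2]⟩] with y hy using hge y hy
    have h3 : ∀ i, LR.pd i g x = LR.pd i (gx n σ) x := fun i => by
      unfold LR.pd; rw [h2.fderiv_eq]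
    simp only [h3]
    exact gx_low hn h0 h1 hx.1.le hx.2.le

end Vale.Agent.P088.S4.H999.P3
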