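import Vale.Agent.P088.R2.H999.S4.PA
import Vale.Agent.P088.R2.H972.XME.Row

/-!
# P088, stage 4, row P3N: the cut-off
-/

open MeasureTheory Set Filter Topology
open scoped ContDiff Matrix

noncomputable section

namespace Vale.Agent.P088.S4.H999.P3

open Vale.Agent.P088.LR Vale.Agent.P088.HY
open Vale.Agent.P088.HY.T3 (Eb e0 Ao Ac iv)
open Vale.Agent.P088.HY.T4 (gy gx Lvl)

variable {n : ℕ}

/-! ### the one variable profile -/

abbrev S0 : ℝ → ℝ := Real.smoothTransition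
abbrev S1 : ℝ → ℝ := deriv S0
abbrev S2 : ℝ → ℝ := deriv S1

theorem sm0 : ContDiff ℝ ∞ S0 := Real.smoothTransition.contDiff
theorem sm1 : ContDiff ℝ ∞ S1 := (contDiff_infty_iff_deriv.1 sm0).2
theorem sm2 : ContDiff ℝ ∞ S2 := (contDiff_infty_iff_deriv.1 sm1).2

theorem S1_lt {x : ℝ} (hx : x < 0) : S1 x = 0 := by
  have : S0 =ᶠ[𝓝 x] fun _ => 0 := by
    filter_upwards [Iio_mem_nhds hx] with y hy using
      Real.smoothTransition.zero_of_nonpos (le_of_lt hy)
  rw [S1, this.deriv_eq]; simp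

theorem S1_gt {x : ℝ} (hx : 1 < x) : S1 x = 0 := by
  have : S0 =ᶠ[𝓝 x] fun _ => 1 := by
    filter_upwards [Ioi_mem_nhds hx] with y hy using
      Real.smoothTransition.one_of_one_le (le_of_lt hy)
  rw [S1, this.deriv_eq]; simp

theorem S2_lt {x : ℝ} (hx : x < 0) : S2 x = 0 := by
  have : S1 =ᶠ[𝓝 x] fun _ => 0 := by
    filter_upwards [Iio_mem_nhds hx] with y hy using S1_lt hy
  rw [S2, this.deriv_eq]; simp

theorem S2_gt {x : ℝ} (hx : 1 < x) : S2 x = 0 := by
  have : S1 =ᶠ[𝓝 x] fun _ => 0 := by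
    filter_upwards [Ioi_mem_nhds hx] with y hy using S1_gt hy
  rw [S2, this.deriv_eq]; simp

theorem bd_of {f : ℝ → ℝ} (hf : Continuous f) (h0 : ∀ x, x < 0 → f x = 0)
    (h1 : ∀ x, 1 < x → f x = 0) : ∃ M, 0 ≤ M ∧ ∀ x, |f x| ≤ M := by
  obtain ⟨M, hM⟩ := (isCompact_Icc (a := (0 : ℝ)) (b := 1)).exists_bound_of_continuousOn
    hf.continuousOn
  refine ⟨max M 0, le_max_right _ _, fun x => ?_⟩
  rcases lt_or_ge x 0 with hx | hx
  · rw [h0 x hx]; simp
  rcases lt_or_ge 1 x with hy | hy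
  · rw [h1 x hy]; simp
  · exact (hM x ⟨hx, hy⟩).trans (le_max_left _ _)

theorem exists_bd : ∃ M, 0 ≤ M ∧ (∀ x, |S1 x| ≤ M) ∧ ∀ x, |S2 x| ≤ M := by
  obtain ⟨M1, h1, h1'⟩ := bd_of sm1.continuous (fun _ => S1_lt) (fun _ => S1_gt)
  obtain ⟨M2, h2, h2'⟩ := bd_of sm2.continuous (fun _ => S2_lt) (fun _ => S2_gt)
  exact ⟨max M1 M2, h1.trans (le_max_left _ _), fun x => (h1' x).trans (le_max_left _ _),
    fun x => (h2' x).trans (le_max_right _ _)⟩

/-! ### calculus -/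

theorem cd_pd {f : V n → ℝ} (hf : ContDiff ℝ ∞ f) (i : Fin n) : ContDiff ℝ ∞ (LR.pd i f) :=
  (hf.fderiv_right (m := ∞) le_rfl).clm_apply contDiff_const

theorem da {f : V n → ℝ} (hf : ContDiff ℝ ∞ f) (x : V n) : DifferentiableAt ℝ f x :=
  (hf.differentiable (by simp)) x

theorem pd_cmul {f : V n → ℝ} (a : ℝ) {x : V n} (hf : DifferentiableAt ℝ f x) (k : Fin n) :
    LR.pd k (fun y => a * f y) x = a * LR.pd k f x := by
  unfold LR.pd
  rw [fderiv_const_mul hf]
  simp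

/-- The derivatives of `x ↦ S (a g x + b)`. -/
theorem pd_S {S : ℝ → ℝ} (hS : ContDiff ℝ ∞ S) {g : V n → ℝ} (hg : ContDiff ℝ ∞ g) (a b : ℝ)
    (i : Fin n) (x : V n) :
    LR.pd i (fun y => S (a * g y + b)) x = deriv S (a * g x + b) * (a * LR.pd i g x) := by
  have h1 : HasDerivAt S (deriv S (a * g x + b)) (a * g x + b) :=
    ((hS.differentiable (by simp)) _).hasDerivAt
  have h2 : DifferentiableAt ℝ (fun y => a * g y + b) x := ((da hg x).const_mul a).add_const b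
  rw [H437.Kel.pd_comp1 (f := fun y => a * g y + b) (φ := S) h1 h2]
  congr 1
  unfold LR.pd
  rw [fderiv_add_const, fderiv_const_mul (da hg x)]
  simp

/-- The cut-off: `ψ S0 (a g + b)`, `0 ≤ a ≤ R`. -/
theorem cut_bd {g ψ : V n → ℝ} (hg : ContDiff ℝ ∞ g) (hψ : ContDiff ℝ ∞ ψ) {M A T R a b : ℝ}
    (hM : 0 ≤ M) (hA : 0 ≤ A) (hT : 0 ≤ T) (hR : 1 ≤ R) (ha : 0 ≤ a) (haR : a ≤ R)
    (hT1 : ∀ t, |S1 t| ≤ T) (hT2 : ∀ t, |S2 t| ≤ T) (hψ0 : ∀ x, 0 ≤ ψ x ∧ ψ x ≤ 1)
    (hψ1 : ∀ i x, |LR.pd i ψ x| ≤ A) (hψ2 : ∀ i j x, |LR.pd i (LR.pd j ψ) x| ≤ A)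
    (hg1 : ∀ x ∈ tsupport ψ, ∀ i, |LR.pd i g x| ≤ M)
    (hg2 : ∀ x ∈ tsupport ψ, ∀ i j, |LR.pd i (LR.pd j g) x| ≤ M) :
    (∀ k x, |LR.pd k (fun y => ψ y * S0 (a * g y + b)) x| ≤
      (A + 2 * A * T * M + T * M ^ 2 + T * M) * R) ∧
    ∀ k l x, |LR.pd k (LR.pd l (fun y => ψ y * S0 (a * g y + b))) x| ≤
      (A + 2 * A * T * M + T * M ^ 2 + T * M) * R ^ 2 := by
  have hs0 : ContDiff ℝ ∞ fun y => S0 (a * g y + b) :=
    sm0.comp ((contDiff_const.mul hg).add contDiff_const)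
  have hs1 : ContDiff ℝ ∞ fun y => S1 (a * g y + b) :=
    sm1.comp ((contDiff_const.mul hg).add contDiff_const)
  have hc0 : ∀ x, |S0 (a * g x + b)| ≤ 1 := fun x => by
    rw [abs_of_nonneg (Real.smoothTransition.nonneg _)]
    exact Real.smoothTransition.le_one _
  have e1 : ∀ k x, LR.pd k (fun y => ψ y * S0 (a * g y + b)) x =
      ψ x * (S1 (a * g x + b) * (a * LR.pd k g x)) + S0 (a * g x + b) * LR.pd k ψ x := by
    intro k x
    rw [H437.Kel.pd_mul (da hψ x) (da hs0 x), pd_S sm0 hg]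
  have e2 : ∀ k l x, LR.pd k (LR.pd l (fun y => ψ y * S0 (a * g y + b))) x =
      ψ x * (S1 (a * g x + b) * (a * LR.pd k (LR.pd l g) x) +
        a * LR.pd l g x * (S2 (a * g x + b) * (a * LR.pd k g x))) +
        S1 (a * g x + b) * (a * LR.pd l g x) * LR.pd k ψ x +
      (S0 (a * g x + b) * LR.pd k (LR.pd l ψ) x +
        LR.pd l ψ x * (S1 (a * g x + b) * (a * LR.pd k g x))) := by
    intro k l x
    have e3 : LR.pd l (fun y => ψ y * S0 (a * g y + b)) = fun x =>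
      ψ x * (S1 (a * g x + b) * (a * LR.pd l g x)) + S0 (a * g x + b) * LR.pd l ψ x :=
      funext (e1 l)
    have d1 : ContDiff ℝ ∞ fun x => a * LR.pd l g x := contDiff_const.mul (cd_pd hg l)
    have d2 : ContDiff ℝ ∞ fun x => S1 (a * g x + b) * (a * LR.pd l g x) := hs1.mul d1
    rw [e3, H437.Kel.pd_add (da (hψ.mul d2) x) (da (hs0.mul (cd_pd hψ l)) x),
      H437.Kel.pd_mul (da hψ x) (da d2 x), H437.Kel.pd_mul (da hs1 x) (da d1 x),
      H437.Kel.pd_mul (da hs0 x) (da (cd_pd hψ l) x), pd_S sm1 hg, pd_S sm0 hg]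
    rw [pd_cmul a (da (cd_pd hg l) x) k]
  have hR0 : 0 ≤ R := by linarith
  have hRR : R ≤ R ^ 2 := by nlinarith
  -- outside of the support
  have off : ∀ x ∉ tsupport ψ, (∀ k, LR.pd k (fun y => ψ y * S0 (a * g y + b)) x = 0) ∧
      ∀ k l, LR.pd k (LR.pd l (fun y => ψ y * S0 (a * g y + b))) x = 0 := by
    intro x hx
    have h1 : ∀ᶠ y in 𝓝 x, y ∉ tsupport ψ := (isClosed_tsupport ψ).isOpen_compl.mem_nhds hx
    have h2 : (fun y => ψ y * S0 (a * g y + b)) =ᶠ[𝓝 x] fun _ => 0 := by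
      filter_upwards [h1] with y hy
      rw [image_eq_zero_of_notMem_tsupport hy, zero_mul]
    have h3 : ∀ l, LR.pd l (fun y => ψ y * S0 (a * g y + b)) =ᶠ[𝓝 x] fun _ => 0 := by
      intro l
      filter_upwards [eventually_eventually_nhds.2 h2] with y hy
      unfold LR.pd
      rw [Filter.EventuallyEq.fderiv_eq hy]
      simp
    refine ⟨fun k => (h3 k).eq_of_nhds, fun k l => ?_⟩
    unfold LR.pd at h3 ⊢
    rw [(h3 l).fderiv_eq]
    simp
  have q0 : 0 ≤ A + 2 * A * T * M + T * M ^ 2 + T * M := by positivity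
  refine ⟨fun k x => ?_, fun k l x => ?_⟩
  · by_cases hx : x ∈ tsupport ψ
    · have b1 : |a * LR.pd k g x| ≤ R * M := by
        rw [abs_mul, abs_of_nonneg ha]
        exact mul_le_mul haR (hg1 x hx k) (abs_nonneg _) hR0
      rw [e1]
      refine (abs_add_le _ _).trans ?_
      have b2 : |ψ x * (S1 (a * g x + b) * (a * LR.pd k g x))| ≤ 1 * (T * (R * M)) := by
        rw [abs_mul, abs_mul]
        refine mul_le_mul ?_ (mul_le_mul (hT1 _) b1 (abs_nonneg _) hT) (by positivity) (by norm_num)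
        rw [abs_of_nonneg (hψ0 x).1]; exact (hψ0 x).2
      have b3 : |S0 (a * g x + b) * LR.pd k ψ x| ≤ 1 * A := by
        rw [abs_mul]
        exact mul_le_mul (hc0 x) (hψ1 k x) (abs_nonneg _) (by norm_num)
      have p1 : 0 ≤ A * T * M * R := by positivity
      have p2 : 0 ≤ T * M ^ 2 * R := by positivity
      have p3 : A ≤ A * R := le_mul_of_one_le_right hA hR
      linarith
    · rw [(off x hx).1 k, abs_zero]; positivity
  · by_cases hx : x ∈ tsupport ψ
    · have b1 : ∀ k, |a * LR.pd k g x| ≤ R * M := fun k => by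
        rw [abs_mul, abs_of_nonneg ha]
        exact mul_le_mul haR (hg1 x hx k) (abs_nonneg _) hR0
      have b2 : |a * LR.pd k (LR.pd l g) x| ≤ R * M := by
        rw [abs_mul, abs_of_nonneg ha]
        exact mul_le_mul haR (hg2 x hx k l) (abs_nonneg _) hR0
      have b0 : |ψ x| ≤ 1 := by rw [abs_of_nonneg (hψ0 x).1]; exact (hψ0 x).2
      have t1 : |ψ x * (S1 (a * g x + b) * (a * LR.pd k (LR.pd l g) x) +
          a * LR.pd l g x * (S2 (a * g x + b) * (a * LR.pd k g x)))| ≤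
          1 * (T * (R * M) + (R * M) * (T * (R * M))) := by
        rw [abs_mul]
        refine mul_le_mul b0 ((abs_add_le _ _).trans (add_le_add ?_ ?_)) (abs_nonneg _) (by norm_num)
        · rw [abs_mul]; exact mul_le_mul (hT1 _) b2 (abs_nonneg _) hT
        · rw [abs_mul, abs_mul (S2 _)]
          exact mul_le_mul (b1 l) (mul_le_mul (hT2 _) (b1 k) (abs_nonneg _) hT) (by positivity)
            (by positivity)
      have t2 : |S1 (a * g x + b) * (a * LR.pd l g x) * LR.pd k ψ x| ≤ T * (R * M) * A := by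
        rw [abs_mul, abs_mul]
        exact mul_le_mul (mul_le_mul (hT1 _) (b1 l) (abs_nonneg _) hT) (hψ1 k x) (abs_nonneg _)
          (by positivity)
      have t3 : |S0 (a * g x + b) * LR.pd k (LR.pd l ψ) x| ≤ 1 * A := by
        rw [abs_mul]
        exact mul_le_mul (hc0 x) (hψ2 k l x) (abs_nonneg _) (by norm_num)
      have t4 : |LR.pd l ψ x * (S1 (a * g x + b) * (a * LR.pd k g x))| ≤ A * (T * (R * M)) := by
        rw [abs_mul, abs_mul (S1 _)]
        exact mul_le_mul (hψ1 l x) (mul_le_mul (hT1 _) (b1 k) (abs_nonneg _) hT) (by positivity) hA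
      rw [e2]
      have hfin := ((abs_add_le _ _).trans (add_le_add ((abs_add_le _ _).trans (add_le_add t1 t2))
        ((abs_add_le _ _).trans (add_le_add t3 t4))))
      refine hfin.trans ?_
      have p1 : T * (R * M) ≤ T * M * R ^ 2 := by
        have := mul_le_mul_of_nonneg_left hRR (mul_nonneg hT hM)
        linarith
      have p2 : A * (T * (R * M)) ≤ A * T * M * R ^ 2 := by
        have := mul_le_mul_of_nonneg_left hRR (mul_nonneg (mul_nonneg hA hT) hM)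
        linarith
      have p3 : A ≤ A * R ^ 2 := by
        have := mul_le_mul_of_nonneg_left (hR.trans hRR) hA
        linarith
      nlinarith [p1, p2, p3]
    · rw [(off x hx).2 k l, abs_zero]; positivity

end Vale.Agent.P088.S4.H999.P3
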