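import Vale.Agent.P088.R2.H999.S4.PB
import Vale.Agent.P088.R2.H999.S4.Alg

/-!
# P088, stage 4, row P3N: the size of the differences at the selected point and far from it
-/

open MeasureTheory Set Filter Topology
open scoped ContDiff Matrix

noncomputable section

namespace Vale.Agent.P088.S4.H999.P3

open Vale.Agent.P088.LR Vale.Agent.P088.LR.U Vale.Agent.P088.LR.H158 Vale.Agent.P088.PJ
open Vale.Agent.P088.HY.T3 (Eb e0 Ao Ac iv)
open Vale.Agent.P088.HY.T4 (gy gx Lvl)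

variable {n N : ℕ}

/-- The index of the entries of the differences. -/
abbrev IX (n N : ℕ) := (Fin n × Fin n) ⊕ ((Fin N × Fin N) ⊕ ((Fin n × Fin N × Fin N) ⊕
  (Fin n × Fin n × Fin N × Fin N)))

/-- The entries of the differences. -/
def FX (d : PD n N) : IX n N → V n → ℂ
  | .inl p => fun x => ((d.s₂ x p.1 p.2 - d.s₁ x p.1 p.2 : ℝ) : ℂ)
  | .inr (.inl p) => fun x => d.P₂ x p.1 p.2 - d.P₁ x p.1 p.2
  | .inr (.inr (.inl p)) => fun x => d.D p.1 x p.2.1 p.2.2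
  | .inr (.inr (.inr p)) => fun x => LR.pd p.2.1 (fun y => d.D p.1 y p.2.2.1 p.2.2.2) x

theorem U0_eq (d : PD n N) (x : V n) :
    U0 d.s₁ d.s₂ d.P₁ d.P₂ d.D x = ∑ p : IX n N, ‖FX d p x‖ ^ 2 := by
  rw [Fintype.sum_sum_type, Fintype.sum_sum_type, Fintype.sum_sum_type]
  simp only [Fintype.sum_prod_type, FX]
  unfold U0 hh d0 d1 nq pdm
  have h1 : ∀ r : ℝ, ‖(r : ℂ)‖ ^ 2 = r ^ 2 := fun r => by
    rw [Complex.norm_real, Real.norm_eq_abs, sq_abs]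
  simp only [h1, Matrix.sub_apply, Matrix.of_apply]
  ring

/-- The number of the entries. -/
def mm (n N : ℕ) : ℝ := (Fintype.card (IX n N) : ℝ)

theorem mm_nn (n N : ℕ) : 0 ≤ mm n N := Nat.cast_nonneg _

theorem norm_pd_it {f : V n → ℂ} (hf : ContDiff ℝ ∞ f) (l : ℕ) (i : Fin n) (x : V n) :
    ‖iteratedFDeriv ℝ l (LR.pd i f) x‖ ≤ ‖iteratedFDeriv ℝ (l + 1) f x‖ := by
  have h1 : LR.pd i f = fun y => (ContinuousLinearMap.apply ℝ ℂ (Pi.single i 1 : V n)) (fderiv ℝ f y) :=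
    rfl
  have h2 := (ContinuousLinearMap.apply ℝ ℂ (Pi.single i 1 : V n)).norm_iteratedFDeriv_comp_left
    (f := fderiv ℝ f) (x := x) (n := l) (N := ∞)
    (hf.fderiv_right (m := ∞) (by simp)).contDiffAt (by exact_mod_cast le_top)
  rw [norm_iteratedFDeriv_fderiv] at h2
  have h3 : ‖ContinuousLinearMap.apply ℝ ℂ (Pi.single i 1 : V n)‖ ≤ 1 := by
    refine ContinuousLinearMap.opNorm_le_bound _ zero_le_one fun L => ?_
    rw [ContinuousLinearMap.apply_apply, one_mul]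
    refine (L.le_opNorm _).trans ?_
    rw [Pi.norm_single, norm_one, mul_one]
  calc ‖iteratedFDeriv ℝ l (LR.pd i f) x‖ ≤
        ‖ContinuousLinearMap.apply ℝ ℂ (Pi.single i 1 : V n)‖ * ‖iteratedFDeriv ℝ (l + 1) f x‖ := h2
    _ ≤ 1 * ‖iteratedFDeriv ℝ (l + 1) f x‖ := mul_le_mul_of_nonneg_right h3 (norm_nonneg _)
    _ = _ := one_mul _

theorem norm_ofR_it {f : V n → ℝ} (hf : ContDiff ℝ ∞ f) (l : ℕ) (x : V n) :
    ‖iteratedFDeriv ℝ l (fun y => (f y : ℂ)) x‖ ≤ ‖iteratedFDeriv ℝ l f x‖ := by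
  have h2 := Complex.ofRealCLM.norm_iteratedFDeriv_comp_left (f := f) (x := x) (n := l) (N := ∞)
    hf.contDiffAt (by exact_mod_cast le_top)
  rw [Complex.ofRealCLM_norm, one_mul] at h2
  exact h2

theorem FX_sm {d : PD n N} (h1 : SmM d.s₁) (h2 : SmM d.s₂) (p1 : SmC d.P₁) (p2 : SmC d.P₂)
    (hD : ∀ a, SmC (d.D a)) (p : IX n N) : ContDiff ℝ ∞ (FX d p) := by
  rcases p with p | p | p | p
  · exact Complex.ofRealCLM.contDiff.comp ((h2 _ _).sub (h1 _ _))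
  · exact (p2 _ _).sub (p1 _ _)
  · exact hD _ _ _
  · exact ((hD p.1 p.2.2.1 p.2.2.2).fderiv_right (m := ∞) le_rfl).clm_apply contDiff_const

/-- The bound of the jets. -/
def QQ (C s R kap δ : ℝ) : ℝ := C * R ^ C * kap ^ s * δ

/-- The entries and their gradients are bounded by the jets. -/
theorem FX_bd {d : PD n N} (h1 : SmM d.s₁) (h2 : SmM d.s₂) (_p1 : SmC d.P₁) (_p2 : SmC d.P₂)
    (hD : ∀ a, SmC (d.D a)) {σ ν q C s R kap Gs δ : ℝ} {ps : V n}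
    (S : SelDN d σ ν q 2 C s R kap Gs δ ps) {x : V n} (hx : x ∈ Ac n (4 / 5) 22) (p : IX n N) :
    ∀ l ≤ 1, ‖iteratedFDeriv ℝ l (FX d p) x‖ ≤
      QQ C s R kap δ * Real.exp (-(q * R * |gx n σ x - Gs|)) *
        Real.exp (-(ν * R * (gx n σ x - Gs))) := by
  intro l hl
  have key : ∀ t : ℝ, t * Real.exp (ν * R * (gx n σ x - Gs)) ≤
      C * R ^ C * kap ^ s * δ * Real.exp (-(q * R * |gx n σ x - Gs|)) →
      t ≤ QQ C s R kap δ * Real.exp (-(q * R * |gx n σ x - Gs|)) *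
        Real.exp (-(ν * R * (gx n σ x - Gs))) := by
    intro t ht
    have h3 : t = t * Real.exp (ν * R * (gx n σ x - Gs)) * Real.exp (-(ν * R * (gx n σ x - Gs))) := by
      rw [mul_assoc, ← Real.exp_add, add_neg_cancel, Real.exp_zero, mul_one]
    rw [h3]
    exact mul_le_mul_of_nonneg_right ht (Real.exp_pos _).le
  rcases p with p | p | p | p
  · refine (norm_ofR_it ((h2 p.1 p.2).sub (h1 p.1 p.2)) l x).trans ?_
    exact key _ (S.js p.1 p.2 l (by omega) x hx)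
  · exact key _ (S.jP p.1 p.2 l (by omega) x hx)
  · exact key _ (S.jD p.1 p.2.1 p.2.2 l (by omega) x hx)
  · refine (norm_pd_it (hD p.1 p.2.2.1 p.2.2.2) l p.2.1 x).trans ?_
    exact key _ (S.jD p.1 p.2.2.1 p.2.2.2 (l + 1) (by omega) x hx)

theorem QQ_nn {C s R kap δ : ℝ} (hC : 0 ≤ C) (hR : 0 ≤ R) (hk : 0 ≤ kap) (hδ : 0 ≤ δ) :
    0 ≤ QQ C s R kap δ := by unfold QQ; positivity

/-- The upper bound of the size of the differences. -/
theorem U0_up {d : PD n N} (h1 : SmM d.s₁) (h2 : SmM d.s₂) (p1 : SmC d.P₁) (p2 : SmC d.P₂)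
    (hD : ∀ a, SmC (d.D a)) {σ ν q C s R kap Gs δ : ℝ} {ps : V n} (hC : 0 ≤ C) (hR : 0 ≤ R)
    (S : SelDN d σ ν q 2 C s R kap Gs δ ps) {x : V n} (hx : x ∈ Ac n (4 / 5) 22) :
    Real.exp (2 * (ν * R) * gx n σ x) * U0 d.s₁ d.s₂ d.P₁ d.P₂ d.D x ≤
      Real.exp (2 * (ν * R) * Gs) * (mm n N * (QQ C s R kap δ) ^ 2 *
        Real.exp (-(2 * (q * R * |gx n σ x - Gs|)))) := by
  have hQ : 0 ≤ QQ C s R kap δ := QQ_nn hC hR (by linarith [S.k1]) S.δ0.le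
  obtain ⟨e, he⟩ : ∃ e, e = QQ C s R kap δ * Real.exp (-(q * R * |gx n σ x - Gs|)) *
        Real.exp (-(ν * R * (gx n σ x - Gs))) := ⟨_, rfl⟩
  have h3 : U0 d.s₁ d.s₂ d.P₁ d.P₂ d.D x ≤ mm n N * e ^ 2 := by
    rw [U0_eq]
    calc ∑ p : IX n N, ‖FX d p x‖ ^ 2 ≤ ∑ _p : IX n N, e ^ 2 := by
          refine Finset.sum_le_sum fun p _ => pow_le_pow_left₀ (norm_nonneg _) ?_ 2
          have := FX_bd h1 h2 p1 p2 hD S hx p 0 (by norm_num)
          rw [norm_iteratedFDeriv_zero] at this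
          rw [he]; exact this
      _ = mm n N * e ^ 2 := by
          rw [Finset.sum_const, Finset.card_univ, nsmul_eq_mul]; rfl
  have h4 : Real.exp (2 * (ν * R) * gx n σ x) * e ^ 2 =
      Real.exp (2 * (ν * R) * Gs) * ((QQ C s R kap δ) ^ 2 *
        Real.exp (-(2 * (q * R * |gx n σ x - Gs|)))) := by
    have e1 : Real.exp (-(2 * (q * R * |gx n σ x - Gs|))) =
        Real.exp (-(q * R * |gx n σ x - Gs|)) ^ 2 := by
      rw [← Real.exp_nat_mul]; congr 1; push_cast; ring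
    have e2 : Real.exp (2 * (ν * R) * gx n σ x) * Real.exp (-(ν * R * (gx n σ x - Gs))) ^ 2 =
        Real.exp (2 * (ν * R) * Gs) := by
      rw [← Real.exp_nat_mul, ← Real.exp_add]; congr 1; push_cast; ring
    rw [he, e1, mul_pow, mul_pow]
    calc _ = (Real.exp (2 * (ν * R) * gx n σ x) * Real.exp (-(ν * R * (gx n σ x - Gs))) ^ 2) *
          ((QQ C s R kap δ) ^ 2 * Real.exp (-(q * R * |gx n σ x - Gs|)) ^ 2) := by ring
      _ = _ := by rw [e2]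
  calc Real.exp (2 * (ν * R) * gx n σ x) * U0 d.s₁ d.s₂ d.P₁ d.P₂ d.D x
      ≤ Real.exp (2 * (ν * R) * gx n σ x) * (mm n N * e ^ 2) :=
        mul_le_mul_of_nonneg_left h3 (Real.exp_pos _).le
    _ = mm n N * (Real.exp (2 * (ν * R) * gx n σ x) * e ^ 2) := by ring
    _ = _ := by rw [h4]; ring

theorem nsq_le (a b : ℂ) : ‖a‖ ^ 2 ≤ 2 * ‖b‖ ^ 2 + 2 * ‖b - a‖ ^ 2 := by
  have h1 : ‖a‖ ≤ ‖b‖ + ‖b - a‖ := by
    have : a = b - (b - a) := by ring
    calc ‖a‖ = ‖b - (b - a)‖ := by rw [← this]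
      _ ≤ _ := norm_sub_le _ _
  have h2 := norm_nonneg a
  nlinarith [sq_nonneg (‖b‖ - ‖b - a‖)]

/-- The lower bound of the size of the differences near the selected point. -/
theorem U0_low {d : PD n N} (h1 : SmM d.s₁) (h2 : SmM d.s₂) (p1 : SmC d.P₁) (p2 : SmC d.P₂)
    (hD : ∀ a, SmC (d.D a)) {σ ν q C s R kap Gs δ Λ r : ℝ} {ps : V n} (hC : 0 ≤ C) (hR : 0 < R)
    (hν : 0 < ν) (hq : 0 ≤ q)
    (S : SelDN d σ ν q 2 C s R kap Gs δ ps) (hr : 0 < r) (hn : (n + 1) * r ≤ 1 / 10)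
    (hΛ : ∀ y ∈ Ac n (4 / 5) 22, ∀ r : ℝ, 0 < r → (n + 1) * r ≤ 1 / 10 →
      ∀ x ∈ Metric.ball y r, ∀ x' ∈ Metric.ball y r, |gx n σ x - gx n σ x'| ≤ Λ * dist x x')
    (hΛ0 : 0 ≤ Λ) (hrΛ : ν * R * (Λ * r) ≤ 1)
    (hr2 : 36 * mm n N * (QQ C s R kap δ * r) ^ 2 ≤ δ ^ 2) {x : V n}
    (hx : x ∈ Metric.ball ps r) :
    δ ^ 2 / 4 ≤ U0 d.s₁ d.s₂ d.P₁ d.P₂ d.D x ∧ |gx n σ x - Gs| ≤ Λ * r ∧
      x ∈ Ac n (9 / 10) (12 / 10) := by
  have hQ : 0 ≤ QQ C s R kap δ := QQ_nn hC hR.le (by linarith [S.k1]) S.δ0.le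
  have hps : ps ∈ Metric.ball ps r := Metric.mem_ball_self hr
  have hpsA : ps ∈ Ac n (4 / 5) 22 := ⟨by linarith [S.pm.1], by linarith [S.pm.2]⟩
  have hball : ∀ z ∈ Metric.ball ps r, |gx n σ z - Gs| ≤ Λ * r ∧ z ∈ Ac n (9 / 10) (12 / 10) := by
    intro z hz
    constructor
    · rw [S.gs]
      refine (hΛ ps hpsA r hr hn z hz ps hps).trans ?_
      exact mul_le_mul_of_nonneg_left (Metric.mem_ball.1 hz).le hΛ0
    · obtain ⟨a1, a2⟩ := HY.T3.rt_ball hr.le hz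
      exact ⟨by linarith [S.pm.1], by linarith [S.pm.2]⟩
  refine ⟨?_, (hball x hx).1, (hball x hx).2⟩
  have hder : ∀ p : IX n N, ∀ z ∈ Metric.ball ps r, ‖fderiv ℝ (FX d p) z‖ ≤ 3 * QQ C s R kap δ := by
    intro p z hz
    obtain ⟨b1, b2⟩ := hball z hz
    have h3 := FX_bd h1 h2 p1 p2 hD S (x := z) ⟨by linarith [b2.1], by linarith [b2.2]⟩ p 1 le_rfl
    have h4 : ‖iteratedFDeriv ℝ 1 (FX d p) z‖ = ‖fderiv ℝ (FX d p) z‖ := norm_iteratedFDeriv_one _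
    rw [h4] at h3
    refine h3.trans ?_
    have e1 : Real.exp (-(q * R * |gx n σ z - Gs|)) ≤ 1 := by
      rw [Real.exp_le_one_iff]
      have : 0 ≤ q * R * |gx n σ z - Gs| := by positivity
      linarith
    have e2 : Real.exp (-(ν * R * (gx n σ z - Gs))) ≤ 3 := by
      have e3 : -(ν * R * (gx n σ z - Gs)) ≤ 1 := by
        have e4 : |ν * R * (gx n σ z - Gs)| ≤ ν * R * (Λ * r) := by
          rw [abs_mul, abs_of_pos (mul_pos hν hR)]
          exact mul_le_mul_of_nonneg_left b1 (mul_pos hν hR).le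
        linarith [(abs_le.1 e4).1]
      refine (Real.exp_le_exp.2 e3).trans ?_
      linarith [Real.exp_one_lt_d9]
    calc QQ C s R kap δ * Real.exp (-(q * R * |gx n σ z - Gs|)) *
          Real.exp (-(ν * R * (gx n σ z - Gs))) ≤ QQ C s R kap δ * 1 * 3 := by
          refine mul_le_mul (mul_le_mul_of_nonneg_left e1 hQ) e2 (Real.exp_pos _).le ?_
          rw [mul_one]; exact hQ
      _ = _ := by ring
  have hdiff : ∀ p : IX n N, ‖FX d p x - FX d p ps‖ ≤ 3 * QQ C s R kap δ * r := by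
    intro p
    have h3 := (convex_ball ps r).norm_image_sub_le_of_norm_fderiv_le (𝕜 := ℝ) (f := FX d p)
      (C := 3 * QQ C s R kap δ)
      (fun z _ => ((FX_sm h1 h2 p1 p2 hD p).differentiable (by simp)) z)
      (fun z hz => hder p z hz) hps hx
    refine h3.trans (mul_le_mul_of_nonneg_left ?_ (by positivity))
    rw [← dist_eq_norm]
    exact (Metric.mem_ball.1 hx).le
  have h5 : δ ^ 2 ≤ 2 * U0 d.s₁ d.s₂ d.P₁ d.P₂ d.D x + 2 * (mm n N * (3 * QQ C s R kap δ * r) ^ 2) := by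
    rw [← S.δe, U0_eq, U0_eq, Finset.mul_sum]
    have h6 : 2 * (mm n N * (3 * QQ C s R kap δ * r) ^ 2) =
        ∑ _p : IX n N, 2 * (3 * QQ C s R kap δ * r) ^ 2 := by
      rw [Finset.sum_const, Finset.card_univ, nsmul_eq_mul]
      unfold mm; ring
    rw [h6, ← Finset.sum_add_distrib]
    refine Finset.sum_le_sum fun p _ => (nsq_le _ (FX d p x)).trans ?_
    have h7 := pow_le_pow_left₀ (norm_nonneg _) (hdiff p) 2
    linarith
  have h6 : 2 * (mm n N * (3 * QQ C s R kap δ * r) ^ 2) = 36 * mm n N * (QQ C s R kap δ * r) ^ 2 / 2 := by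
    ring
  linarith

end Vale.Agent.P088.S4.H999.P3
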