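import Vale.Agent.P088.R2.H999.S4.PC

/-!
# P088, stage 4, row P3N: the main tensor
-/

open MeasureTheory Set Filter Topology
open scoped ContDiff Matrix

noncomputable section

namespace Vale.Agent.P088.S4.H999.P3

open Vale.Agent.P088.LR Vale.Agent.P088.LR.U Vale.Agent.P088.LR.H158 Vale.Agent.P088.PJ
open Vale.Agent.P088.HY.T3 (Eb e0 Ao Ac iv)
open Vale.Agent.P088.HY.T4 (gy gx Lvl)

variable {n N : ℕ}

/-! ### restriction to a smaller chart -/

theorem Da.sub {k : ℕ} {δ : ℝ} {E E' : Set (V n)} {s : MF n} {P : MC n N} {G : Fin n → MC n N}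
    (h : Da k δ E s P G) (hE : E' ⊆ E) : Da k δ E' s P G :=
  ⟨h.ss, h.sy, h.sP, h.hP, h.sG, h.hG, h.cs, h.cP, h.cG, fun x hx => h.dq x (hE hx),
    fun x hx => h.pe x (hE hx)⟩

theorem RL.sub {k : ℕ} {δ : ℝ} {O O' K : Set (V n)} {j₀ : Fin N} {s₁ s₂ : MF n}
    {P₁ P₂ : MC n N} {G₁ G₂ β Y D : Fin n → MC n N} (h : RL k δ O K j₀ s₁ s₂ P₁ P₂ G₁ G₂ β Y D)
    (hO : O' ⊆ O) (ho : IsOpen O') : RL k δ O' K j₀ s₁ s₂ P₁ P₂ G₁ G₂ β Y D :=
  { op := ho
    cl := h.cl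
    d₁ := Da.sub h.d₁ (inter_subset_inter_left K hO)
    d₂ := Da.sub h.d₂ (inter_subset_inter_left K hO)
    sβ := h.sβ
    cβ := h.cβ
    eβ := fun i x hx => h.eβ i x ⟨hO hx.1, hx.2⟩
    LY := fun a x hx => h.LY a x (hO hx)
    os := fun x hx => h.os x (hO hx)
    oP := fun x hx => h.oP x (hO hx)
    oG := fun i x hx => h.oG i x (hO hx)
    oD := fun a x hx => h.oD a x (hO hx)
    sY := h.sY
    sD := h.sD
    cY := h.cY
    cD := h.cD
    tD := fun a x hx => h.tD a x (hO hx)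
    hY := fun a x hx => h.hY a x ⟨hO hx.1, hx.2⟩
    gi := fun a x hx => h.gi a x ⟨hO hx.1, hx.2⟩ }

/-! ### smoothness of the main tensor -/

theorem smC_add {P Q : MC n N} (hP : SmC P) (hQ : SmC Q) : SmC fun x => P x + Q x :=
  fun a b => (hP a b).add (hQ a b)

theorem smC_cs (c : ℂ) {P : MC n N} (hP : SmC P) : SmC fun x => c • P x := fun a b => by
  have : (fun x => (c • P x) a b) = fun x => c * P x a b := rfl
  rw [this]
  exact contDiff_const.mul (hP a b)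

theorem smC_Db {P : MC n N} (hP : SmC P) {Γ : Fin n → Fin n → MC n N} (hΓ : ∀ a b, SmC (Γ a b))
    {D : Fin n → MC n N} (hD : ∀ a, SmC (D a)) (b : Fin n) : SmC (Db P Γ D b) :=
  SmC_mul hP (smC_sum _ fun a => SmC_mul (hD a) (hΓ a b))

theorem sm_mbl {s τ : MF n} (hs : SmM s) (ht : SmM τ) (b l : Fin n) :
    ContDiff ℝ ∞ (mbl s τ b l) := by
  unfold mbl
  refine ContDiff.div_const ?_ _
  refine ContDiff.add (ContDiff.mul ?_ contDiff_const) (contDiff_const.mul ?_)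
  · exact ContDiff.sum fun i _ => ContDiff.sum fun j _ => (hs i j).mul (ht i j)
  · exact ContDiff.sum fun i _ => (hs l i).mul (ht i b)

theorem smC_bR {s : MF n} (hs : SmM s) {P : MC n N} (hP : SmC P) (hI : SmC fun x => (P x)⁻¹)
    {G : Fin n → MC n N} (hG : ∀ i, SmC (G i)) (j : Fin n) : SmC (PJ.bR s P G j) :=
  SmC_mul (smC_sub (smC_sum _ fun i => smC_pdm (smC_TP hs hP i j) i) (smC_kp hs hG j)) hI

theorem smC_VR {s₁ s₂ τ : MF n} (h1 : SmM s₁) (h2 : SmM s₂) (ht : SmM τ) {P₁ P₂ : MC n N}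
    (p1 : SmC P₁) (p2 : SmC P₂) (hI : SmC fun x => (P₂ x)⁻¹) {G₂ β : Fin n → MC n N}
    (hG : ∀ i, SmC (G₂ i)) (hβ : ∀ i, SmC (β i)) {Γ : Fin n → Fin n → MC n N}
    (hΓ : ∀ a b, SmC (Γ a b)) {D : Fin n → MC n N} (hD : ∀ a, SmC (D a)) (j b : Fin n) :
    SmC (VR s₁ s₂ τ P₁ P₂ G₂ β Γ D j b) := by
  have hDb := fun c => smC_Db p2 hΓ hD c
  unfold VR
  refine smC_sub (smC_sub (smC_sub (smC_add ?_ ?_) ?_) ?_) ?_
  · exact smC_sub (smC_TP h2 p2 j b) (smC_TP h1 p1 j b)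
  · exact smC_cs 2 (smC_sum _ fun i => smC_pdm (smC_smul (h2 i j) (hDb b)) i)
  · exact SmC_mul (smC_bR h2 p2 hI hG j) (hDb b)
  · refine smC_sum _ fun l => smC_smul (s := fun x => LR.pd l (fun y => s₁ y j b) x) ?_
      (smC_sum _ fun c => smC_smul (sm_mbl h2 ht c l) (hDb c))
    exact cd_pd (h1 j b) l
  · exact SmC_mul (smC_sum _ fun c => smC_smul (sm_mbl h2 ht c b) (hDb c)) (hβ j)

theorem smC_VS {s₁ s₂ τ : MF n} (h1 : SmM s₁) (h2 : SmM s₂) (ht : SmM τ) {P₁ P₂ : MC n N}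
    (p1 : SmC P₁) (p2 : SmC P₂) (hI : SmC fun x => (P₂ x)⁻¹) {G₂ β : Fin n → MC n N}
    (hG : ∀ i, SmC (G₂ i)) (hβ : ∀ i, SmC (β i)) {Γ : Fin n → Fin n → MC n N}
    (hΓ : ∀ a b, SmC (Γ a b)) {D : Fin n → MC n N} (hD : ∀ a, SmC (D a)) (j b : Fin n) :
    SmC (VS s₁ s₂ τ P₁ P₂ G₂ β Γ D j b) :=
  smC_cs _ (smC_add (smC_VR h1 h2 ht p1 p2 hI hG hβ hΓ hD j b)
    (smC_VR h1 h2 ht p1 p2 hI hG hβ hΓ hD b j))

/-- `|s|² > 0`. -/
theorem ipm_pos {s : MF n} {x : V n} (hn : 1 ≤ n)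
    (h : ∀ i j, |s x i j - (1 : Matrix (Fin n) (Fin n) ℝ) i j| ≤ 1 / 2) : 0 < HY.ipm s s x := by
  obtain ⟨o, ho⟩ : ∃ o : Fin n, o = ⟨0, by omega⟩ := ⟨_, rfl⟩
  have h1 := abs_le.1 (h o o)
  rw [Matrix.one_apply_eq] at h1
  have h2 : 0 < s x o o * s x o o := by nlinarith [h1.1]
  unfold HY.ipm
  calc 0 < s x o o * s x o o := h2
    _ ≤ ∑ j, s x o j * s x o j := Finset.single_le_sum (f := fun j => s x o j * s x o j)
        (fun _ _ => mul_self_nonneg _) (Finset.mem_univ o)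
    _ ≤ _ := Finset.single_le_sum (f := fun i => ∑ j, s x i j * s x i j)
        (fun _ _ => Finset.sum_nonneg fun _ _ => mul_self_nonneg _) (Finset.mem_univ o)

theorem cont_tn {s : MF n} (hs : SmM s) (hp : ∀ x, 0 < HY.ipm s s x) {H : Fin n → Fin n → MC n N}
    (hH : ∀ i j, SmC (H i j)) : Continuous (tn (tfC s H)) := by
  have h1 : ContDiff ℝ ∞ (HY.ipm s s) := by
    unfold HY.ipm
    exact ContDiff.sum fun i _ => ContDiff.sum fun j _ => (hs i j).mul (hs i j)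
  have h2 : SmC (ipC s H) := smC_sum _ fun i => smC_sum _ fun j => smC_smul (hs i j) (hH i j)
  have h3 : ∀ i j, SmC (tfC s H i j) := fun i j =>
    smC_sub (hH i j) (smC_smul ((hs i j).div h1 fun x => (hp x).ne') h2)
  unfold tn
  exact continuous_finsetSum _ fun i _ => continuous_finsetSum _ fun j _ => nq_s (h3 i j)

theorem tn_nn (H : Fin n → Fin n → MC n N) (x : V n) : 0 ≤ tn H x :=
  Finset.sum_nonneg fun _ _ => Finset.sum_nonneg fun _ _ => Finset.sum_nonneg fun _ _ =>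
    Finset.sum_nonneg fun _ _ => sq_nonneg _

theorem nq_zero' : nq (0 : Matrix (Fin N) (Fin N) ℂ) = 0 := by simp [nq]

theorem pdm_ev {F : MC n N} {x : V n} (h : F =ᶠ[𝓝 x] fun _ => 0) (i : Fin n) : pdm i F x = 0 := by
  ext a b
  show LR.pd i (fun y => F y a b) x = 0
  have h1 : (fun y => F y a b) =ᶠ[𝓝 x] fun _ => 0 := by
    filter_upwards [h] with y hy
    rw [hy]; rfl
  unfold LR.pd
  rw [h1.fderiv_eq]
  simp

/-- The main tensor vanishes where the differences vanish. -/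
theorem VS_zero {s₁ s₂ τ : MF n} {P₁ P₂ : MC n N} {G₂ β : Fin n → MC n N}
    {Γ : Fin n → Fin n → MC n N} {D : Fin n → MC n N} {U : Set (V n)} (hU : IsOpen U)
    (hs : ∀ x ∈ U, s₂ x = s₁ x) (hP : ∀ x ∈ U, P₂ x = P₁ x) (hD : ∀ a, ∀ x ∈ U, D a x = 0)
    {x : V n} (hx : x ∈ U) (i j : Fin n) : VS s₁ s₂ τ P₁ P₂ G₂ β Γ D i j x = 0 := by
  have hDb : ∀ b, ∀ y ∈ U, Db P₂ Γ D b y = 0 := by
    intro b y hy
    unfold Db
    simp only [hD _ y hy, zero_mul, Finset.sum_const_zero, mul_zero]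
  have hV : ∀ j b, VR s₁ s₂ τ P₁ P₂ G₂ β Γ D j b x = 0 := by
    intro j b
    have hZ : Zt s₁ s₂ P₁ P₂ j b x = 0 := by
      unfold Zt TP
      rw [hs x hx, hP x hx, sub_self]
    have hp : ∀ i, pdm i (fun y => (s₂ y i j : ℂ) • Db P₂ Γ D b y) x = 0 := by
      intro i
      refine pdm_ev ?_ i
      filter_upwards [hU.mem_nhds hx] with y hy
      rw [hDb b y hy, smul_zero]
    unfold VR
    simp only [hZ, hp, hDb _ x hx, Finset.sum_const_zero, smul_zero, mul_zero, zero_mul, sub_zero,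
      add_zero]
  unfold VS
  rw [hV i j, hV j i, add_zero, smul_zero]

theorem tn_zero {s : MF n} {H : Fin n → Fin n → MC n N} {x : V n} (h : ∀ i j, H i j x = 0) :
    tn (tfC s H) x = 0 := by
  have h1 : ipC s H x = 0 := by
    unfold ipC
    simp only [h, smul_zero, Finset.sum_const_zero]
  have h2 : ∀ i j, tfC s H i j x = 0 := by
    intro i j
    unfold tfC
    rw [h, h1, smul_zero, sub_zero]
  unfold tn
  simp only [h2, nq_zero', Finset.sum_const_zero]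

end Vale.Agent.P088.S4.H999.P3
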