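import Vale.Agent.P088.R2.H999.S4.PD

/-!
# P088, stage 4, row P3N: the cut-offs, the integrals, the arithmetic
-/

open MeasureTheory Set Filter Topology
open scoped ContDiff Matrix

noncomputable section

namespace Vale.Agent.P088.S4.H999.P3

open Vale.Agent.P088.LR Vale.Agent.P088.LR.U Vale.Agent.P088.LR.H158 Vale.Agent.P088.PJ
open Vale.Agent.P088.HY.T3 (Eb e0 Ao Ac iv)
open Vale.Agent.P088.HY.T4 (gy gx Lvl cg)

variable {n N : ℕ}

/-- The final arithmetic. -/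
theorem fin_ar {s C R kap δ q ν Cg A m r X : ℝ} (hC : 0 ≤ C) (hR : 1 ≤ R) (hk : 1 ≤ kap)
    (hδ : 0 < δ) (hs : 0 < s) (hs1 : s ≤ 1) (hq : 2 * ((n : ℝ) + 3) ≤ q) (hν : 1 ≤ ν)
    (hCg : 0 < Cg) (hA : 1 ≤ A) (_hm : 0 ≤ m) (hX : 0 ≤ X) (hr : r = 1 / (A * R ^ (C + 1) * kap ^ s))
    (hRk : R ^ ((C + 1) * n + 2 * C + 7) ≤ kap)
    (hRK : 2 * (36 * A ^ n * Cg * ν ^ 6 * 24 ^ n * m * C ^ 2) ≤ R)
    (H : δ ^ 2 / 36 * (2 * r) ^ n ≤ Cg * (ν * R) * X + Cg * (ν * R) ^ 6 *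
      (m * (QQ C s R kap δ) ^ 2 * kap ^ (-(q / 2)) * 24 ^ n)) :
    δ ^ 2 ≤ (72 * A ^ n * Cg * ν + ((C + 1) * n + 1)) *
      R ^ (72 * A ^ n * Cg * ν + ((C + 1) * n + 1)) * kap ^ (((n : ℝ) + 4) * s) * X := by
  have hR0 : 0 < R := by linarith
  have hk0 : 0 < kap := by linarith
  have hn0 : (0 : ℝ) ≤ n := Nat.cast_nonneg n
  obtain ⟨P, hP⟩ : ∃ P, P = R ^ (C + 1) := ⟨_, rfl⟩
  obtain ⟨Q, hQ⟩ : ∃ Q, Q = kap ^ s := ⟨_, rfl⟩
  have hP0 : 0 < P := hP ▸ Real.rpow_pos_of_pos hR0 _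
  have hQ0 : 0 < Q := hQ ▸ Real.rpow_pos_of_pos hk0 _
  have hA0 : 0 < A := by linarith
  obtain ⟨T, hT⟩ : ∃ T, T = (A * P * Q) ^ n := ⟨_, rfl⟩
  have hT0 : 0 < T := by rw [hT]; positivity
  have h1 : 1 / T ≤ (2 * r) ^ n := by
    have : (2 * r) ^ n = 2 ^ n * (1 / T) := by
      rw [hr, hT, ← hP, ← hQ, mul_pow, div_pow, one_pow]
    rw [this]
    have h2 : (1 : ℝ) ≤ 2 ^ n := one_le_pow₀ (by norm_num)
    exact le_mul_of_one_le_left (by positivity) h2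
  have h3 : δ ^ 2 / 36 * (1 / T) ≤ δ ^ 2 / 36 * (2 * r) ^ n :=
    mul_le_mul_of_nonneg_left h1 (by positivity)
  have h4 : δ ^ 2 ≤ 36 * T * (Cg * (ν * R) * X + Cg * (ν * R) ^ 6 *
      (m * (QQ C s R kap δ) ^ 2 * kap ^ (-(q / 2)) * 24 ^ n)) := by
    have h5 := mul_le_mul_of_nonneg_left (h3.trans H) (by positivity : 0 ≤ 36 * T)
    have h6 : 36 * T * (δ ^ 2 / 36 * (1 / T)) = δ ^ 2 := by field_simp
    rwa [h6] at h5
  -- the error
  obtain ⟨K3, hK3⟩ : ∃ K3, K3 = Q ^ n * Q ^ 2 * kap ^ (-(q / 2)) := ⟨_, rfl⟩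
  obtain ⟨P3, hP3⟩ : ∃ P3, P3 = P ^ n * (R ^ C) ^ 2 * R ^ 6 := ⟨_, rfl⟩
  have hK3k : K3 * kap ≤ 1 := by
    have e1 : K3 * kap = kap ^ (s * n + s * 2 + -(q / 2) + 1) := by
      rw [hK3, hQ, ← Real.rpow_natCast, ← Real.rpow_mul hk0.le, ← Real.rpow_natCast,
        ← Real.rpow_mul hk0.le, ← Real.rpow_add hk0, ← Real.rpow_add hk0]
      nth_rewrite 2 [← Real.rpow_one kap]
      rw [← Real.rpow_add hk0]
      norm_num
    rw [e1]
    refine Real.rpow_le_one_of_one_le_of_nonpos hk ?_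
    have e2 : s * n ≤ n := by nlinarith
    linarith
  have hP3R : P3 * R ≤ kap := by
    have e1 : P3 * R = R ^ ((C + 1) * n + 2 * C + 7) := by
      rw [hP3, hP, ← Real.rpow_natCast, ← Real.rpow_mul hR0.le, ← Real.rpow_natCast (R ^ C),
        ← Real.rpow_mul hR0.le, ← Real.rpow_natCast R 6, ← Real.rpow_add hR0, ← Real.rpow_add hR0]
      nth_rewrite 2 [← Real.rpow_one R]
      rw [← Real.rpow_add hR0]
      congr 1
      push_cast
      ring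
    rw [e1]; exact hRk
  have hP30 : 0 < P3 := by rw [hP3]; positivity
  have hK30 : 0 < K3 := by rw [hK3]; positivity
  have h7 : 36 * T * (Cg * (ν * R) ^ 6 *
      (m * (QQ C s R kap δ) ^ 2 * kap ^ (-(q / 2)) * 24 ^ n)) ≤ δ ^ 2 / 2 := by
    have e1 : 36 * T * (Cg * (ν * R) ^ 6 *
      (m * (QQ C s R kap δ) ^ 2 * kap ^ (-(q / 2)) * 24 ^ n)) =
      (36 * A ^ n * Cg * ν ^ 6 * 24 ^ n * m * C ^ 2) * (P3 * K3) * δ ^ 2 := by
      rw [hT, hP3, hK3]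
      unfold QQ
      rw [← hQ]
      ring
    rw [e1]
    have e2 : (36 * A ^ n * Cg * ν ^ 6 * 24 ^ n * m * C ^ 2) * (P3 * K3) ≤ 1 / 2 := by
      calc (36 * A ^ n * Cg * ν ^ 6 * 24 ^ n * m * C ^ 2) * (P3 * K3) ≤ R / 2 * (P3 * K3) :=
            mul_le_mul_of_nonneg_right (by linarith) (by positivity)
        _ = (P3 * R) * K3 / 2 := by ring
        _ ≤ kap * K3 / 2 := by
            have := mul_le_mul_of_nonneg_right hP3R hK30.le
            linarith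
        _ ≤ 1 / 2 := by linarith
    have := mul_le_mul_of_nonneg_right e2 (sq_nonneg δ)
    linarith
  have h8 : δ ^ 2 ≤ 72 * T * (Cg * (ν * R) * X) := by
    rw [mul_add] at h4
    linarith
  -- the powers
  obtain ⟨E, hE⟩ : ∃ E, E = 72 * A ^ n * Cg * ν + ((C + 1) * n + 1) := ⟨_, rfl⟩
  have hE1 : 72 * A ^ n * Cg * ν ≤ E := by
    have : 0 ≤ (C + 1) * n + 1 := by positivity
    linarith
  have hE2 : (C + 1) * n + 1 ≤ E := by
    have : 0 ≤ 72 * A ^ n * Cg * ν := by positivity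
    linarith
  have h9 : P ^ n * R ≤ R ^ E := by
    have e1 : P ^ n * R = R ^ ((C + 1) * n + 1) := by
      rw [hP, ← Real.rpow_natCast, ← Real.rpow_mul hR0.le]
      nth_rewrite 2 [← Real.rpow_one R]
      rw [← Real.rpow_add hR0]
    rw [e1]
    exact Real.rpow_le_rpow_of_exponent_le hR hE2
  have h10 : Q ^ n ≤ kap ^ (((n : ℝ) + 4) * s) := by
    rw [hQ, ← Real.rpow_natCast, ← Real.rpow_mul hk0.le]
    refine Real.rpow_le_rpow_of_exponent_le hk ?_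
    nlinarith
  rw [← hE]
  calc δ ^ 2 ≤ 72 * T * (Cg * (ν * R) * X) := h8
    _ = (72 * A ^ n * Cg * ν) * (P ^ n * R) * Q ^ n * X := by rw [hT]; ring
    _ ≤ E * R ^ E * kap ^ (((n : ℝ) + 4) * s) * X := by
        have hE0 : 0 ≤ E := by
          refine le_trans ?_ hE1
          positivity
        refine mul_le_mul_of_nonneg_right ?_ hX
        refine mul_le_mul ?_ h10 (by positivity) (by positivity)
        exact mul_le_mul hE1 h9 (by positivity) hE0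

/-- Functions with compact support have bounded derivatives. -/
theorem bd_cs {f : V n → ℝ} (hf : ContDiff ℝ ∞ f) (hc : HasCompactSupport f) :
    ∃ A : ℝ, 0 ≤ A ∧ (∀ i x, |LR.pd i f x| ≤ A) ∧ ∀ i j x, |LR.pd i (LR.pd j f) x| ≤ A := by
  have h0 : ∀ {h : V n → ℝ}, ContDiff ℝ ∞ h → HasCompactSupport h → ∀ i,
      HasCompactSupport (LR.pd i h) := fun {h} _ hc i => by
    have h1 : HasCompactSupport (fderiv ℝ h) := hc.fderiv (𝕜 := ℝ)
    exact h1.comp_left (g := fun L : V n →L[ℝ] ℝ => L (Pi.single i 1)) rfl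
  have h1 : ∀ i : Fin n, ∃ A : ℝ, ∀ x, |LR.pd i f x| ≤ A := by
    intro i
    obtain ⟨A, hA⟩ := (cd_pd hf i).continuous.bounded_above_of_compact_support (h0 hf hc i)
    exact ⟨A, hA⟩
  have h2 : ∀ i j : Fin n, ∃ A : ℝ, ∀ x, |LR.pd i (LR.pd j f) x| ≤ A := by
    intro i j
    obtain ⟨A, hA⟩ := (cd_pd (cd_pd hf j) i).continuous.bounded_above_of_compact_support
      (h0 (cd_pd hf j) (h0 hf hc j) i)
    exact ⟨A, hA⟩
  choose A hA using h1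
  choose B hB using h2
  have hAs : ∀ i, |A i| ≤ ∑ i, |A i| := fun i =>
    Finset.single_le_sum (f := fun i => |A i|) (fun _ _ => abs_nonneg _) (Finset.mem_univ i)
  have hBs : ∀ i j, |B i j| ≤ ∑ i, ∑ j, |B i j| := fun i j =>
    (Finset.single_le_sum (f := fun j => |B i j|) (fun _ _ => abs_nonneg _)
      (Finset.mem_univ j)).trans (Finset.single_le_sum (f := fun i => ∑ j, |B i j|)
        (fun _ _ => Finset.sum_nonneg fun _ _ => abs_nonneg _) (Finset.mem_univ i))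
  have hA0 : 0 ≤ ∑ i, |A i| := Finset.sum_nonneg fun _ _ => abs_nonneg _
  have hB0 : 0 ≤ ∑ i, ∑ j, |B i j| :=
    Finset.sum_nonneg fun _ _ => Finset.sum_nonneg fun _ _ => abs_nonneg _
  refine ⟨(∑ i, |A i|) + ∑ i, ∑ j, |B i j|, by linarith, fun i x => ?_, fun i j x => ?_⟩
  · exact (hA i x).trans ((le_abs_self _).trans (by linarith [hAs i]))
  · exact (hB i j x).trans ((le_abs_self _).trans (by linarith [hBs i j]))

/-- The spatial cut-offs. -/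
structure Cu (n : ℕ) (A : ℝ) (ψ χ₁ χ₂ : V n → ℝ) : Prop where
  s0 : ContDiff ℝ ∞ ψ
  s1 : ContDiff ℝ ∞ χ₁
  s2 : ContDiff ℝ ∞ χ₂
  t0 : tsupport ψ ⊆ Ao n (88 / 100) 12
  t1 : tsupport χ₁ ⊆ Ao n (85 / 100) 14
  t2 : tsupport χ₂ ⊆ Ao n (81 / 100) 20
  i0 : ∀ x ∈ Ac n (99 / 100) 11, ψ x = 1
  i1 : ∀ x ∈ Ac n (88 / 100) 12, χ₁ x = 1
  i2 : ∀ x ∈ Ac n (85 / 100) 14, χ₂ x = 1
  b0 : ∀ x, 0 ≤ ψ x ∧ ψ x ≤ 1
  b1 : ∀ x, 0 ≤ χ₁ x ∧ χ₁ x ≤ 1
  b2 : ∀ x, 0 ≤ χ₂ x ∧ χ₂ x ≤ 1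
  a0 : 0 ≤ A
  d0 : ∀ i x, |LR.pd i ψ x| ≤ A
  dd : ∀ i j x, |LR.pd i (LR.pd j ψ) x| ≤ A
  d1 : ∀ i x, |LR.pd i χ₁ x| ≤ A
  d2 : ∀ i x, |LR.pd i χ₂ x| ≤ A

theorem exCu (n : ℕ) : ∃ (A : ℝ) (ψ χ₁ χ₂ : V n → ℝ), Cu n A ψ χ₁ χ₂ := by
  have hcs : ∀ {f : V n → ℝ} {a b : ℝ}, tsupport f ⊆ Ao n a b → HasCompactSupport f :=
    fun {f a b} h => (HY.T3.isCompact_Ac (n := n) a b).of_isClosed_subset (isClosed_tsupport f)
      fun x hx => ⟨(h hx).1.le, (h hx).2.le⟩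
  obtain ⟨ψ, O0, a1, a2, a3, a4, a5, a6⟩ := R2.H238.S3.ex_cut
    (HY.T3.isClosed_Ac (n := n) (99 / 100) 11) (HY.T3.isOpen_Ao (n := n) (88 / 100) 12)
    fun x hx => ⟨by linarith [hx.1], by linarith [hx.2]⟩
  obtain ⟨χ₁, O1, b1, b2, b3, b4, b5, b6⟩ := R2.H238.S3.ex_cut
    (HY.T3.isClosed_Ac (n := n) (88 / 100) 12) (HY.T3.isOpen_Ao (n := n) (85 / 100) 14)
    fun x hx => ⟨by linarith [hx.1], by linarith [hx.2]⟩
  obtain ⟨χ₂, O2, c1, c2, c3, c4, c5, c6⟩ := R2.H238.S3.ex_cut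
    (HY.T3.isClosed_Ac (n := n) (85 / 100) 14) (HY.T3.isOpen_Ao (n := n) (81 / 100) 20)
    fun x hx => ⟨by linarith [hx.1], by linarith [hx.2]⟩
  obtain ⟨A0, p0, p1, p2⟩ := bd_cs a1 (hcs a2)
  obtain ⟨A1, q0, q1, -⟩ := bd_cs b1 (hcs b2)
  obtain ⟨A2, r0, r1, -⟩ := bd_cs c1 (hcs c2)
  refine ⟨A0 + A1 + A2, ψ, χ₁, χ₂, ⟨a1, b1, c1, a2, b2, c2, fun x hx => a5 x (a4 hx),
    fun x hx => b5 x (b4 hx), fun x hx => c5 x (c4 hx), a6, b6, c6, by linarith,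
    fun i x => (p1 i x).trans (by linarith), fun i j x => (p2 i j x).trans (by linarith),
    fun i x => (q1 i x).trans (by linarith), fun i x => (r1 i x).trans (by linarith)⟩⟩

/-- The solvability in part A from the solvability in part B. -/
theorem slD_of {O : Set (V n)} {s : MF n} {g g' : V n → ℝ} {ρ κ : ℝ} (hO : IsOpen O)
    (hgs : Continuous g) (hg : ∀ x ∈ O, g x = g' x) (h : SlC O s g' ρ κ) : SlD O s g ρ κ := by
  intro F hF hc hs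
  have e1 : ∀ f : V n → ℝ, ∫ x in O, f x ^ 2 * Real.exp (-(2 * ρ * g x)) =
      ∫ x in O, f x ^ 2 * Real.exp (-(2 * ρ * g' x)) := fun f =>
    setIntegral_congr_fun hO.measurableSet fun x hx => by simp only [hg x hx]
  have e2 : ∀ f : V n → ℝ, IntegrableOn (fun x => f x ^ 2 * Real.exp (-(2 * ρ * g x))) O ↔
      IntegrableOn (fun x => f x ^ 2 * Real.exp (-(2 * ρ * g' x))) O := fun f =>
    integrableOn_congr_fun (fun x hx => by simp only [hg x hx]) hO.measurableSet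
  have h1 : Integrable fun x => F x ^ 2 * Real.exp (-(2 * ρ * g x)) := by
    refine Continuous.integrable_of_hasCompactSupport ?_ ?_
    · exact (hF.continuous.pow 2).mul (Real.continuous_exp.comp
        (continuous_const.mul hgs).neg)
    · refine HasCompactSupport.intro hc fun x hx => ?_
      rw [image_eq_zero_of_notMem_tsupport hx]
      ring
  obtain ⟨z, z1, z2, z3, z4⟩ := h F hF.contDiffOn ((e2 F).1 h1.integrableOn)
  refine ⟨z, z1, z2, (e2 z).2 z3, ?_⟩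
  rw [e1, e1]
  exact z4

end Vale.Agent.P088.S4.H999.P3
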