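import Vale.Agent.P088.R2.H999.S4.PE

/-!
# P088, stage 4, row P3N: the cut-off in depth, the main and the error term
-/

open MeasureTheory Set Filter Topology
open scoped ContDiff Matrix

noncomputable section

namespace Vale.Agent.P088.S4.H999.P3

open Vale.Agent.P088.LR Vale.Agent.P088.LR.U Vale.Agent.P088.LR.H158 Vale.Agent.P088.PJ
open Vale.Agent.P088.HY.T3 (Eb e0 Ao Ac iv)
open Vale.Agent.P088.HY.T4 (gy gx Lvl cg)

variable {n N : ℕ} {g ψ χ₁ χ₂ : V n → ℝ} {A T M c₀ R L Gs ν : ℝ}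

/-- The cut-off. -/
def cT (g ψ : V n → ℝ) (R L Gs : ℝ) (x : V n) : ℝ :=
  ψ x * S0 (4 * R / L * g x + (2 - 4 * R * Gs / L))

/-- The set where it is not locally constant. -/
def BT (g ψ : V n → ℝ) (R L Gs : ℝ) : Set (V n) :=
  tsupport (cT g ψ R L Gs) ∩ {x | √(HY.sq x) < 1 ∨ R * (g x - Gs) ≤ -(L / 4)}

theorem arg_eq (hL : 0 < L) (t : ℝ) :
    4 * R / L * t + (2 - 4 * R * Gs / L) = (R * (t - Gs) + L / 2) / (L / 4) := by
  field_simp
  ring

theorem cT_one (hL : 0 < L) {x : V n} (hψ : ψ x = 1) (h : -(L / 4) ≤ R * (g x - Gs)) :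
    cT g ψ R L Gs x = 1 := by
  unfold cT
  rw [hψ, one_mul]
  apply Real.smoothTransition.one_of_one_le
  rw [arg_eq hL, le_div_iff₀ (by positivity)]
  linarith

theorem cT_abs (hψ : ∀ x, 0 ≤ ψ x ∧ ψ x ≤ 1) (x : V n) :
    0 ≤ cT g ψ R L Gs x ∧ cT g ψ R L Gs x ≤ S0 (4 * R / L * g x + (2 - 4 * R * Gs / L)) ∧
      cT g ψ R L Gs x ≤ 1 := by
  have h1 := Real.smoothTransition.nonneg (4 * R / L * g x + (2 - 4 * R * Gs / L))
  have h2 := Real.smoothTransition.le_one (4 * R / L * g x + (2 - 4 * R * Gs / L))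
  unfold cT
  refine ⟨mul_nonneg (hψ x).1 h1, mul_le_of_le_one_left h1 (hψ x).2, ?_⟩
  exact mul_le_one₀ (hψ x).2 h1 h2

theorem ts_cT : tsupport (cT g ψ R L Gs) ⊆ tsupport ψ := by
  refine closure_mono fun x hx => ?_
  rw [Function.mem_support] at hx ⊢
  intro h
  apply hx
  unfold cT
  rw [h, zero_mul]

theorem pd_loc {f : V n → ℝ} {x : V n} {c : ℝ} (h : f =ᶠ[𝓝 x] fun _ => c) :
    ∀ k, LR.pd k f x = 0 ∧ ∀ l, LR.pd l (LR.pd k f) x = 0 := by
  intro k
  have h3 : LR.pd k f =ᶠ[𝓝 x] fun _ => 0 := by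
    filter_upwards [eventually_eventually_nhds.2 h] with y hy
    unfold LR.pd
    rw [Filter.EventuallyEq.fderiv_eq hy]
    simp
  refine ⟨h3.eq_of_nhds, fun l => ?_⟩
  unfold LR.pd at h3 ⊢
  rw [h3.fderiv_eq]
  simp

theorem ccT (hA : Cu n A ψ χ₁ χ₂) (hgs : ContDiff ℝ ∞ g) (hW : WX (Ao n (4 / 5) 24) M c₀ g)
    (hM : 0 ≤ M) (hT : 0 ≤ T) (hT1 : ∀ t, |S1 t| ≤ T) (hT2 : ∀ t, |S2 t| ≤ T) (hL : 4 ≤ L)
    (hR : 1 ≤ R) (hν : A + 2 * A * T * M + T * M ^ 2 + T * M ≤ ν) (hν1 : 1 ≤ ν) (hRA : A ≤ R)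
    (hfar : ∀ x : V n, 11 ≤ √(HY.sq x) → √(HY.sq x) ≤ 12 → R * (g x - Gs) ≤ -(L / 4)) :
    CC (Ao n (4 / 5) 24) (BT g ψ R L Gs) (ν * R) (cT g ψ R L Gs) χ₁ χ₂ := by
  have hL0 : 0 < L := by linarith
  have hR0 : 0 < R := by linarith
  have hsub : tsupport ψ ⊆ Ao n (4 / 5) 24 := fun x hx =>
    ⟨by linarith [(hA.t0 hx).1], by linarith [(hA.t0 hx).2]⟩
  have ha0 : 0 ≤ 4 * R / L := by positivity
  have haR : 4 * R / L ≤ R := by
    rw [div_le_iff₀ hL0]; nlinarith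
  obtain ⟨b1, b2⟩ := cut_bd hgs hA.s0 hM hA.a0 hT hR ha0 haR (b := 2 - 4 * R * Gs / L) hT1 hT2
    hA.b0 hA.d0 hA.dd (fun x hx => hW.g1 x (hsub hx)) (fun x hx => hW.g2 x (hsub hx))
  have hRν : R ≤ ν * R := le_mul_of_one_le_left hR0.le hν1
  have hcont : Continuous fun x : V n => √(HY.sq x) := HY.T3.cont_rt
  refine
    { s0 := hA.s0.mul (sm0.comp ((contDiff_const.mul hgs).add contDiff_const))
      s1 := hA.s1
      s2 := hA.s2
      c2 := (HY.T3.isCompact_Ac (n := n) (81 / 100) 20).of_isClosed_subset (isClosed_tsupport χ₂)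
        fun x hx => ⟨(hA.t2 hx).1.le, (hA.t2 hx).2.le⟩
      o2 := fun x hx => ⟨by linarith [(hA.t2 hx).1], by linarith [(hA.t2 hx).2]⟩
      i1 := fun x hx => hA.i1 x ⟨(hA.t0 (ts_cT hx)).1.le, (hA.t0 (ts_cT hx)).2.le⟩
      i2 := fun x hx => hA.i2 x ⟨(hA.t1 hx).1.le, (hA.t1 hx).2.le⟩
      b0 := fun x => ?_
      b1 := fun x => ?_
      b2 := fun x => ?_
      d0 := fun k x => (b1 k x).trans (mul_le_mul_of_nonneg_right hν hR0.le)
      dd := fun k l x => (b2 k l x).trans ?_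
      d1 := fun k x => (hA.d1 k x).trans (hRA.trans hRν)
      d2 := fun k x => (hA.d2 k x).trans (hRA.trans hRν)
      mB := ?_
      bB := inter_subset_left
      zB := fun x hx => ?_ }
  · rw [abs_of_nonneg (cT_abs hA.b0 x).1]; exact (cT_abs hA.b0 x).2.2
  · rw [abs_of_nonneg (hA.b1 x).1]; exact (hA.b1 x).2
  · rw [abs_of_nonneg (hA.b2 x).1]; exact (hA.b2 x).2
  · have h1 : ν ≤ ν ^ 2 := by nlinarith
    calc (A + 2 * A * T * M + T * M ^ 2 + T * M) * R ^ 2 ≤ ν ^ 2 * R ^ 2 :=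
          mul_le_mul_of_nonneg_right (hν.trans h1) (sq_nonneg R)
      _ = (ν * R) ^ 2 := by ring
  · refine (isClosed_tsupport _).measurableSet.inter (MeasurableSet.union ?_ ?_)
    · exact (isOpen_lt hcont continuous_const).measurableSet
    · exact (isClosed_le (continuous_const.mul (hgs.continuous.sub continuous_const))
        continuous_const).measurableSet
  · by_cases hx1 : x ∈ tsupport (cT g ψ R L Gs)
    · have h2 : ¬ (√(HY.sq x) < 1 ∨ R * (g x - Gs) ≤ -(L / 4)) := fun h => hx ⟨hx1, h⟩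
      push Not at h2
      obtain ⟨h3, h4⟩ := h2
      have h5 : √(HY.sq x) < 11 := by
        by_contra h
        push Not at h
        exact absurd (hfar x h (hA.t0 (ts_cT hx1)).2.le) (not_le.2 h4)
      have h6 : cT g ψ R L Gs =ᶠ[𝓝 x] fun _ => 1 := by
        have o1 : IsOpen {y : V n | 99 / 100 < √(HY.sq y)} := isOpen_lt continuous_const hcont
        have o2 : IsOpen {y : V n | √(HY.sq y) < 11} := isOpen_lt hcont continuous_const
        have o3 : IsOpen {y : V n | -(L / 4) < R * (g y - Gs)} := isOpen_lt continuous_const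
          (continuous_const.mul (hgs.continuous.sub continuous_const))
        filter_upwards [o1.mem_nhds (show 99 / 100 < √(HY.sq x) by linarith), o2.mem_nhds h5,
          o3.mem_nhds h4] with y y1 y2 y3
        exact cT_one hL0 (hA.i0 y ⟨le_of_lt y1, le_of_lt y2⟩) (le_of_lt y3)
      exact pd_loc h6
    · exact pd_loc (notMem_tsupport_iff_eventuallyEq.1 hx1)

/-! ### the error term -/

theorem vol_le {S : Set (V n)} (hS : S ⊆ Ac n 0 12) : (volume S).toReal ≤ 24 ^ n := by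
  have h1 : S ⊆ Metric.closedBall (0 : V n) 12 := by
    intro x hx
    rw [mem_closedBall_zero_iff, pi_norm_le_iff_of_nonneg (by norm_num)]
    intro i
    rw [Real.norm_eq_abs]
    exact (abs_le_rt x i).trans (hS hx).2
  have h2 : volume (Metric.closedBall (0 : V n) 12) = ENNReal.ofReal (24 ^ n) := by
    rw [Real.volume_pi_closedBall _ (by norm_num), Fintype.card_fin]
    norm_num
  have h3 : volume S ≤ ENNReal.ofReal (24 ^ n) := h2 ▸ measure_mono h1
  exact ENNReal.toReal_le_of_le_ofReal (by positivity) h3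

theorem U0_zero {d : PD n N} {U : Set (V n)} (hU : IsOpen U) (hs : ∀ x ∈ U, d.s₂ x = d.s₁ x)
    (hP : ∀ x ∈ U, d.P₂ x = d.P₁ x) (hD : ∀ a, ∀ x ∈ U, d.D a x = 0) {x : V n} (hx : x ∈ U) :
    U0 d.s₁ d.s₂ d.P₁ d.P₂ d.D x = 0 := by
  have h1 : ∀ a i, pdm i (d.D a) x = 0 := fun a i => pdm_ev
    (by filter_upwards [hU.mem_nhds hx] with y hy using hD a y hy) i
  unfold U0 hh d0 d1
  simp only [hs x hx, hP x hx, hD _ x hx, h1, sub_self, nq_zero', Finset.sum_const_zero]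
  norm_num

theorem kap_exp {kap q t : ℝ} (hk : 1 ≤ kap) (hq : 0 ≤ q) (ht : Real.log kap / 4 ≤ t) :
    Real.exp (-(2 * (q * t))) ≤ kap ^ (-(q / 2)) := by
  rw [Real.rpow_def_of_pos (by linarith)]
  refine Real.exp_le_exp.2 ?_
  have := mul_le_mul_of_nonneg_left ht hq
  linarith

/-- The error term. -/
theorem wB_le {d : PD n N} (h1 : SmM d.s₁) (h2 : SmM d.s₂) (p1 : SmC d.P₁) (p2 : SmC d.P₂)
    (hD : ∀ a, SmC (d.D a)) {σ q C s kap δ : ℝ} {ps : V n} (hC : 0 ≤ C) (hR : 0 ≤ R)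
    (hq : 0 ≤ q) (S : SelDN d σ ν q 2 C s R kap Gs δ ps)
    (hge : ∀ x ∈ Ao n (3 / 4) 30, g x = gx n σ x) (hψ : tsupport ψ ⊆ Ao n (88 / 100) 12)
    (hz : ∀ x : V n, √(HY.sq x) < 1 → U0 d.s₁ d.s₂ d.P₁ d.P₂ d.D x = 0) :
    wB (BT g ψ R (Real.log kap) Gs) g (ν * R) (U0 d.s₁ d.s₂ d.P₁ d.P₂ d.D) ≤
      Real.exp (2 * (ν * R) * Gs) *
        (mm n N * (QQ C s R kap δ) ^ 2 * kap ^ (-(q / 2)) * 24 ^ n) := by
  have hk0 : 0 < kap := by linarith [S.k1]
  have hsubB : BT g ψ R (Real.log kap) Gs ⊆ Ac n 0 12 := fun x hx =>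
    ⟨Real.sqrt_nonneg _, (hψ (ts_cT hx.1)).2.le⟩
  have hfin : volume (BT g ψ R (Real.log kap) Gs) < ⊤ :=
    (measure_mono hsubB).trans_lt (HY.T3.isCompact_Ac 0 12).measure_lt_top
  have hb : ∀ x ∈ BT g ψ R (Real.log kap) Gs,
      ‖Real.exp (2 * (ν * R) * g x) * U0 d.s₁ d.s₂ d.P₁ d.P₂ d.D x‖ ≤
      Real.exp (2 * (ν * R) * Gs) * (mm n N * (QQ C s R kap δ) ^ 2 * kap ^ (-(q / 2))) := by
    intro x hx
    have hU : 0 ≤ U0 d.s₁ d.s₂ d.P₁ d.P₂ d.D x := by
      rw [U0_eq]; exact Finset.sum_nonneg fun _ _ => sq_nonneg _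
    rw [Real.norm_of_nonneg (mul_nonneg (Real.exp_pos _).le hU)]
    have hA := hψ (ts_cT hx.1)
    rcases hx.2 with h | h
    · rw [hz x h, mul_zero]
      have := mm_nn n N
      positivity
    · have hg : g x = gx n σ x := hge x ⟨by linarith [hA.1], by linarith [hA.2]⟩
      have h3 := U0_up h1 h2 p1 p2 hD hC hR S (x := x) ⟨by linarith [hA.1], by linarith [hA.2]⟩
      rw [hg]
      refine h3.trans ?_
      refine mul_le_mul_of_nonneg_left ?_ (Real.exp_pos _).le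
      refine mul_le_mul_of_nonneg_left ?_ (mul_nonneg (mm_nn n N) (sq_nonneg _))
      have h4 : Real.log kap / 4 ≤ R * |gx n σ x - Gs| := by
        rw [hg] at h
        have h5 : R * (gx n σ x - Gs) ≥ -(R * |gx n σ x - Gs|) := by
          have := neg_abs_le (gx n σ x - Gs)
          nlinarith
        linarith
      have h6 := kap_exp S.k1 hq h4
      have h7 : q * R * |gx n σ x - Gs| = q * (R * |gx n σ x - Gs|) := by ring
      rw [h7]; exact h6
  have h5 := norm_setIntegral_le_of_norm_le_const hfin hb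
  have h6 : wB (BT g ψ R (Real.log kap) Gs) g (ν * R) (U0 d.s₁ d.s₂ d.P₁ d.P₂ d.D) ≤
      Real.exp (2 * (ν * R) * Gs) * (mm n N * (QQ C s R kap δ) ^ 2 * kap ^ (-(q / 2))) *
        volume.real (BT g ψ R (Real.log kap) Gs) :=
    (le_abs_self _).trans h5
  refine h6.trans ?_
  have h7 : volume.real (BT g ψ R (Real.log kap) Gs) ≤ 24 ^ n := vol_le hsubB
  have h8 : 0 ≤ Real.exp (2 * (ν * R) * Gs) * (mm n N * (QQ C s R kap δ) ^ 2 * kap ^ (-(q / 2))) := by
    have := mm_nn n N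
    positivity
  calc _ ≤ Real.exp (2 * (ν * R) * Gs) * (mm n N * (QQ C s R kap δ) ^ 2 * kap ^ (-(q / 2))) *
        24 ^ n := mul_le_mul_of_nonneg_left h7 h8
    _ = _ := by ring

/-! ### the main term -/

theorem wI_tn {d : PD n N} {σ kap : ℝ} {χ : V n → ℝ} (hgs : Continuous g)
    (hge : ∀ x ∈ Ao n (3 / 4) 30, g x = gx n σ x) (hL : 0 < Real.log kap)
    (hχ : χ = cT g ψ R (Real.log kap) Gs) (hψc : Continuous ψ)
    (hψ : tsupport ψ ⊆ Ao n (88 / 100) 12) (hψ0 : ∀ x, 0 ≤ ψ x ∧ ψ x ≤ 1)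
    (hc : Continuous (tn (tfC d.s₁ (VD d))))
    (hz : ∀ x : V n, √(HY.sq x) < 1 → tn (tfC d.s₁ (VD d)) x = 0) :
    wI χ g (ν * R) (tn (tfC d.s₁ (VD d))) ≤
      Real.exp (2 * (ν * R) * Gs) * ItN d σ ν R kap Gs := by
  have hK : IsCompact (Ac n (99 / 100) 12) := HY.T3.isCompact_Ac _ _
  obtain ⟨u, hu⟩ : ∃ u : V n → ℝ, u = fun x =>
    S0 (4 * R / Real.log kap * g x + (2 - 4 * R * Gs / Real.log kap)) := ⟨_, rfl⟩
  have huc : Continuous u := by
    rw [hu]
    exact sm0.continuous.comp ((continuous_const.mul hgs).add continuous_const)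
  have hcs : ContinuousOn (fun x => Real.exp (2 * (ν * R) * Gs) *
      (u x ^ 2 * tn (tfC d.s₁ (VD d)) x * Real.exp (2 * (ν * R * (g x - Gs))))) (Ac n (99 / 100) 12) := by
    refine Continuous.continuousOn (continuous_const.mul (((huc.pow 2).mul hc).mul ?_))
    exact Real.continuous_exp.comp (continuous_const.mul (continuous_const.mul
      (hgs.sub continuous_const)))
  have hχc : Continuous χ := by
    have : χ = fun x => ψ x * u x := by rw [hχ, hu]; rfl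
    rw [this]; exact hψc.mul huc
  have e1 : wI χ g (ν * R) (tn (tfC d.s₁ (VD d))) =
      ∫ x in Ac n (99 / 100) 12, χ x ^ 2 * Real.exp (2 * (ν * R) * g x) *
        tn (tfC d.s₁ (VD d)) x := by
    unfold wI
    symm
    refine setIntegral_eq_integral_of_forall_compl_eq_zero fun x hx => ?_
    by_cases h1 : √(HY.sq x) < 1
    · rw [hz x h1, mul_zero]
    · have h2 : x ∉ tsupport ψ := fun h => hx ⟨by linarith [not_lt.1 h1], (hψ h).2.le⟩
      have h3 : χ x = 0 := by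
        rw [hχ]
        unfold cT
        rw [image_eq_zero_of_notMem_tsupport h2, zero_mul]
      rw [h3]; ring
  have e2 : Real.exp (2 * (ν * R) * Gs) * ItN d σ ν R kap Gs =
      ∫ x in Ac n (99 / 100) 12, Real.exp (2 * (ν * R) * Gs) *
        (u x ^ 2 * tn (tfC d.s₁ (VD d)) x * Real.exp (2 * (ν * R * (g x - Gs)))) := by
    unfold ItN
    rw [← integral_const_mul]
    refine setIntegral_congr_fun (HY.T3.isClosed_Ac _ _).measurableSet fun x hx => ?_
    have hg : g x = gx n σ x := hge x ⟨by linarith [hx.1], by linarith [hx.2]⟩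
    have h1 : cg n σ R kap Gs x = u x := by
      rw [hu]
      show _ = S0 _
      rw [arg_eq hL, hg]
      rfl
    simp only [hg, h1]
  rw [e1, e2]
  refine setIntegral_mono_on ?_ (hcs.integrableOn_compact hK) (HY.T3.isClosed_Ac _ _).measurableSet
    fun x hx => ?_
  · refine ContinuousOn.integrableOn_compact hK (Continuous.continuousOn ?_)
    exact ((hχc.pow 2).mul (Real.continuous_exp.comp (continuous_const.mul hgs))).mul hc
  · have h1 : χ x ^ 2 ≤ u x ^ 2 := by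
      have := cT_abs (g := g) (R := R) (L := Real.log kap) (Gs := Gs) hψ0 x
      rw [hχ, hu]
      exact pow_le_pow_left₀ this.1 this.2.1 2
    have h2 : Real.exp (2 * (ν * R) * g x) =
        Real.exp (2 * (ν * R) * Gs) * Real.exp (2 * (ν * R * (g x - Gs))) := by
      rw [← Real.exp_add]; congr 1; ring
    rw [h2]
    calc _ = χ x ^ 2 * (Real.exp (2 * (ν * R) * Gs) * Real.exp (2 * (ν * R * (g x - Gs))) *
          tn (tfC d.s₁ (VD d)) x) := by ring
      _ ≤ u x ^ 2 * (Real.exp (2 * (ν * R) * Gs) * Real.exp (2 * (ν * R * (g x - Gs))) *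
          tn (tfC d.s₁ (VD d)) x) :=
          mul_le_mul_of_nonneg_right h1 (mul_nonneg (by positivity) (tn_nn _ _))
      _ = _ := by ring

end Vale.Agent.P088.S4.H999.P3
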